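import Vale.Agent.P155.Kasteleyn

/-!
# P155: distances, cutoffs and sums over lattice points
-/

open Finset Matrix

noncomputable section

namespace Vale.Agent.P155

open scoped Classical

variable {T : TGraph}

/-- distance in the maximum norm -/
def dst (p q : Pt) : ℝ := max |(p.1 : ℝ) - q.1| |(p.2 : ℝ) - q.2|

lemma dst_nonneg (p q : Pt) : 0 ≤ dst p q := le_max_of_le_left (abs_nonneg _)

lemma dst_comm (p q : Pt) : dst p q = dst q p := by simp only [dst, abs_sub_comm]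

lemma dst_self (p : Pt) : dst p p = 0 := by simp [dst]

lemma dst_triangle (p q r : Pt) : dst p r ≤ dst p q + dst q r := by
  have := abs_sub_le (p.1 : ℝ) q.1 r.1
  have := abs_sub_le (p.2 : ℝ) q.2 r.2
  refine max_le ?_ ?_ <;>
    linarith [le_max_left |(p.1 : ℝ) - q.1| |(p.2 : ℝ) - q.2|, le_max_right |(p.1 : ℝ) - q.1| |(p.2 : ℝ) - q.2|,
      le_max_left |(q.1 : ℝ) - r.1| |(q.2 : ℝ) - r.2|, le_max_right |(q.1 : ℝ) - r.1| |(q.2 : ℝ) - r.2|,
      show dst p q = max |(p.1 : ℝ) - q.1| |(p.2 : ℝ) - q.2| from rfl,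
      show dst q r = max |(q.1 : ℝ) - r.1| |(q.2 : ℝ) - r.2| from rfl]

lemma dst_eq_cast (p q : Pt) : dst p q = ((max |p.1 - q.1| |p.2 - q.2| : ℤ) : ℝ) := by
  push_cast; rfl

lemma dst_le_cast {p q : Pt} {m : ℕ} : dst p q ≤ m ↔ InBox q m p := by
  rw [dst_eq_cast, InBox, show (m : ℝ) = ((m : ℤ) : ℝ) by simp, Int.cast_le, max_le_iff]

lemma dst_one_le {p q : Pt} (h : p ≠ q) : 1 ≤ dst p q := by
  rw [dst_eq_cast]
  norm_cast
  simp only [ne_eq, Prod.ext_iff, not_and_or] at h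
  rcases h with h | h
  · exact le_max_of_le_left (Int.one_le_abs (sub_ne_zero.2 h))
  · exact le_max_of_le_right (Int.one_le_abs (sub_ne_zero.2 h))

lemma dst_adj {p q : Pt} (h : Adj p q) : dst q p ≤ 1 := by
  rw [dst_eq_cast]
  norm_cast
  rw [Adj] at h
  rcases abs_nonneg (q.1 - p.1), abs_nonneg (q.2 - p.2) with ⟨h1, h2⟩
  exact max_le (by omega) (by omega)

lemma dst_add_along (w : Pt) : dst (w + eAlong w) w = 1 ∧ dst (w - eAlong w) w = 1 := by
  unfold eAlong; split_ifs <;> simp [dst]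

lemma dst_add_across (w : Pt) : dst (w + eAcross w) w = 1 ∧ dst (w - eAcross w) w = 1 := by
  unfold eAcross; split_ifs <;> simp [dst]

/-- a cutoff equal to one up to `A - B` and zero from `A` on -/
def ramp (A B r : ℝ) : ℝ := max 0 (min 1 ((A - r) / B))

lemma ramp_nonneg (A B r : ℝ) : 0 ≤ ramp A B r := le_max_left _ _

lemma ramp_le_one (A B r : ℝ) : ramp A B r ≤ 1 := max_le zero_le_one (min_le_left _ _)

lemma ramp_eq_one {A B r : ℝ} (hB : 0 < B) (h : r ≤ A - B) : ramp A B r = 1 := by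
  have : 1 ≤ (A - r) / B := (one_le_div hB).2 (by linarith)
  simp [ramp, this]

lemma ramp_eq_zero {A B r : ℝ} (hB : 0 < B) (h : A ≤ r) : ramp A B r = 0 :=
  max_eq_left (min_le_of_right_le (div_nonpos_of_nonpos_of_nonneg (by linarith) hB.le))

lemma ramp_lip {A B r r' d : ℝ} (hB : 0 < B) (h : |r - r'| ≤ d) : |ramp A B r - ramp A B r'| ≤ d / B := by
  unfold ramp
  refine (abs_max_sub_max_le_max _ _ _ _).trans ?_
  have hd : 0 ≤ d / B := div_nonneg ((abs_nonneg _).trans h) hB.le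
  rw [sub_self, abs_zero, max_eq_right (abs_nonneg _)]
  refine (abs_min_sub_min_le_max _ _ _ _).trans (max_le (by simpa using hd) ?_)
  rw [← sub_div, abs_div, abs_of_pos hB]
  gcongr
  rwa [show A - r - (A - r') = r' - r by ring, abs_sub_comm]

lemma dst_lip (p q c : Pt) : |dst p c - dst q c| ≤ dst p q := by
  rw [abs_sub_le_iff]
  exact ⟨by linarith [dst_triangle p q c], by linarith [dst_triangle q p c, dst_comm p q]⟩

/-- the difference across two ends -/
def dif (φ : Pt → ℝ) (e : Pt → Pt) (w : Pt) : ℝ := φ (w + e w) - φ (w - e w)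

lemma grad1_eq (v : T.B1 → ℝ) (w : T.W) : grad1 v w = dif (ext v) eAcross w.1 := rfl

lemma grad0_eq (u : T.B0 → ℝ) (w : T.W) : grad0 u w = dif (ext u) eAlong w.1 := rfl

lemma sum_W (F : Pt → ℝ) : ∑ w : T.W, F w.1 = ∑ p ∈ mids T.S, F p := Finset.sum_coe_sort (mids T.S) F

lemma sum_B1 (F : Pt → ℝ) : ∑ f : T.B1, F f.1 = ∑ p ∈ T.S, F p := Finset.sum_coe_sort T.S F

/-- a sum along an injection is at most the whole sum -/
lemma sum_inj_le {ι : Type*} (s : Finset ι) (φ : ι → Pt) (t : Finset Pt) (F : Pt → ℝ)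
    (hinj : ∀ i ∈ s, ∀ j ∈ s, φ i = φ j → i = j) (hF : ∀ p, 0 ≤ F p)
    (hmem : ∀ i ∈ s, F (φ i) ≠ 0 → φ i ∈ t) : ∑ i ∈ s, F (φ i) ≤ ∑ p ∈ t, F p := by
  rw [← sum_image hinj]
  calc ∑ p ∈ s.image φ, F p = ∑ p ∈ (s.image φ).filter (fun p => F p ≠ 0), F p := (sum_filter_ne_zero _).symm
    _ ≤ _ := sum_le_sum_of_subset_of_nonneg (fun p hp => by
      obtain ⟨hp, h⟩ := mem_filter.1 hp
      obtain ⟨i, hi, rfl⟩ := mem_image.1 hp
      exact hmem i hi h) fun p _ _ => hF p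

/-- every centre is the end of at most two sides in each orientation -/
lemma sum_ends {t : Finset Pt} (F : Pt → ℝ) (hF : ∀ p, 0 ≤ F p) (h0 : ∀ p, p ∉ t → F p = 0) (e : Pt → Pt)
    (he : ∀ p q, (Odd p.1 ↔ Odd q.1) → e p = e q) :
    ∑ w ∈ mids T.S, (F (w + e w) + F (w - e w)) ≤ 4 * ∑ p ∈ t, F p := by
  have key : ∀ (sg : Pt → Pt → Pt), (∀ a b d, sg a d = sg b d → a = b) → ∀ P : Pt → Prop,
      (∀ p q, P p → P q → e p = e q) →
      ∑ w ∈ (mids T.S).filter P, F (sg w (e w)) ≤ ∑ p ∈ t, F p := fun sg hsg P hP =>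
    sum_inj_le _ (fun w => sg w (e w)) t F (fun a ha b hb h => by
      rw [hP a b (mem_filter.1 ha).2 (mem_filter.1 hb).2] at h
      exact hsg _ _ _ h) hF fun i _ h => by_contra fun hn => h (h0 _ hn)
  have k1 := key (fun a d => a + d) (fun a b d => add_right_cancel) (fun p => Odd p.1) fun p q hp hq => he p q (by simp [hp, hq])
  have k2 := key (fun a d => a - d) (fun a b d h => by simpa using h) (fun p => Odd p.1) fun p q hp hq => he p q (by simp [hp, hq])
  have k3 := key (fun a d => a + d) (fun a b d => add_right_cancel) (fun p => ¬Odd p.1) fun p q hp hq => he p q (by simp [hp, hq])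
  have k4 := key (fun a d => a - d) (fun a b d h => by simpa using h) (fun p => ¬Odd p.1) fun p q hp hq => he p q (by simp [hp, hq])
  rw [← sum_filter_add_sum_filter_not (mids T.S) (fun p => Odd p.1), sum_add_distrib, sum_add_distrib,
    show 4 * ∑ p ∈ t, F p = ∑ p ∈ t, F p + ∑ p ∈ t, F p + (∑ p ∈ t, F p + ∑ p ∈ t, F p) by ring]
  refine add_le_add (add_le_add (le_of_eq_of_le ?_ k1) (le_of_eq_of_le ?_ k2))
    (add_le_add (le_of_eq_of_le ?_ k3) (le_of_eq_of_le ?_ k4)) <;> congr! 2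

lemma eAcross_congr (p q : Pt) (h : Odd p.1 ↔ Odd q.1) : eAcross p = eAcross q := by simp only [eAcross, h]

lemma eAlong_congr (p q : Pt) (h : Odd p.1 ↔ Odd q.1) : eAlong p = eAlong q := by simp only [eAlong, h]

lemma inv_mul_kas : kInv T * (kas (T := T)) = 1 := by
  ext b b'
  have := congrFun₂ (nonsing_inv_mul (kasSq T (someEquiv T)) (kasSq_isUnit _)) ((someEquiv T).symm b) ((someEquiv T).symm b')
  simpa [mul_apply, kasSq, kInv, one_apply] using this

end Vale.Agent.P155
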