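import Vale.Agent.P155.Energy

/-!
# P155: the corner part of the inverse Kasteleyn matrix inside a square

The corner part has gradient minus the centre part. On every ring of corners around the source it
takes both signs, so it is controlled by its gradient there; a weighted Hardy inequality then
carries the bound inwards.
-/

open Finset Matrix

noncomputable section

namespace Vale.Agent.P155

open scoped Classical

variable {T : TGraph} {c : Pt} {M : ℕ}

/-- the squares around `c` are present -/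
def Safe (T : TGraph) (c : Pt) (M : ℕ) : Prop :=
  Even c.1 ∧ Even c.2 ∧ 2 ≤ M ∧ ∀ f : Pt, Odd f.1 → Odd f.2 → InBox c (11 * M) f → f ∈ T.S

variable (hs : Safe T c M)

include hs in
lemma corner_safe {p : Pt} (h1 : Even p.1) (h2 : Even p.2) (hp : InBox c (8 * M + 4) p) :
    p ∈ (corners T.S).erase T.root := by
  obtain ⟨-, -, hM, hf⟩ := hs
  have hd : ∀ d ∈ dg4, p + d ∈ T.S := fun d hd => by
    rw [InBox, abs_le, abs_le] at hp
    push_cast at hp
    refine hf _ ?_ ?_ ?_
    · rw [Int.even_iff] at h1; rw [Int.odd_iff]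
      rcases mem_dg4.1 hd with rfl | rfl | rfl | rfl <;> simp only [Prod.fst_add] <;> omega
    · rw [Int.even_iff] at h2; rw [Int.odd_iff]
      rcases mem_dg4.1 hd with rfl | rfl | rfl | rfl <;> simp only [Prod.snd_add] <;> omega
    · rw [InBox, abs_le, abs_le]
      push_cast
      rcases mem_dg4.1 hd with rfl | rfl | rfl | rfl <;> simp only [Prod.fst_add, Prod.snd_add] <;> omega
  refine mem_erase.2 ⟨fun e => ?_, ?_⟩
  · obtain ⟨d, hd', hn⟩ := T.root_bd
    exact hn (e ▸ hd d hd')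
  · have := corner_mem (hd (1, 1) (by simp [dg4])) (d := (-1, -1)) (by simp [dg4])
    rwa [add_assoc, show ((1, 1) : Pt) + (-1, -1) = 0 by decide, add_zero] at this

include hs in
lemma mid_safe {q : Pt} (h : Odd q.1 ∧ Even q.2 ∨ Even q.1 ∧ Odd q.2) (hq : InBox c (8 * M + 3) q) :
    q ∈ mids T.S := by
  obtain ⟨-, -, hM, hf⟩ := hs
  rw [InBox, abs_le, abs_le] at hq
  push_cast at hq
  rcases h with ⟨a, b⟩ | ⟨a, b⟩
  · have := side_mem (hf (q + (0, 1)) (by simpa using a) ?_ ?_) (d := (0, -1)) (by simp [nb4])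
    · rwa [add_assoc, show ((0, 1) : Pt) + (0, -1) = 0 by decide, add_zero] at this
    · rw [Int.even_iff] at b; simp only [Prod.snd_add, Int.odd_iff]; omega
    · rw [InBox, abs_le, abs_le]; push_cast; simp only [Prod.fst_add, Prod.snd_add]; omega
  · have := side_mem (hf (q + (1, 0)) ?_ (by simpa using b) ?_) (d := (-1, 0)) (by simp [nb4])
    · rwa [add_assoc, show ((1, 0) : Pt) + (-1, 0) = 0 by decide, add_zero] at this
    · rw [Int.even_iff] at a; simp only [Prod.fst_add, Int.odd_iff]; omega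
    · rw [InBox, abs_le, abs_le]; push_cast; simp only [Prod.fst_add, Prod.snd_add]; omega

lemma along_mem {w : Pt} (hw : w ∈ mids T.S) : w + eAlong w ∈ corners T.S ∧ w - eAlong w ∈ corners T.S := by
  obtain ⟨f, hf, d, hd, rfl⟩ : ∃ f ∈ T.S, ∃ d ∈ nb4, f + d = w := by
    simp only [mids, mem_biUnion, mem_image] at hw
    exact hw
  obtain ⟨o1, o2⟩ := T.odd f hf
  have e : ∀ s, d + s ∈ dg4 → f + d + s ∈ corners T.S := fun s hs' => by rw [add_assoc]; exact corner_mem hf hs'
  rw [sub_eq_add_neg]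
  have h1 := Int.odd_iff.1 o1
  have h2 := Int.odd_iff.1 o2
  rcases mem_nb4.1 hd with rfl | rfl | rfl | rfl <;> refine ⟨e _ ?_, e _ ?_⟩ <;>
    simp only [eAlong, Int.odd_iff, Prod.fst_add] <;> split_ifs <;> first | omega | simp [dg4]

/-- the corner potential of a source, extended by zero -/
def upot (w' : T.W) : Pt → ℝ := ext (pot0 w')

lemma upot_id (w' : T.W) (Ψ : Pt → ℝ) :
    ∑ w ∈ mids T.S, dif (upot w') eAlong w * dif Ψ eAlong w = dif Ψ eAlong w'.1 := by
  set ψ : T.B0 → ℝ := fun a => Ψ a.1 - Ψ T.root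
  have he : ∀ p ∈ corners T.S, ext ψ p = Ψ p - Ψ T.root := fun p hp => by
    by_cases hr : p = T.root
    · subst hr; simp [ext_not ψ (s := (corners T.S).erase T.root) (p := T.root) (by simp)]
    · exact ext_mem ψ ⟨p, mem_erase.2 ⟨hr, hp⟩⟩
  have hd : ∀ w : T.W, grad0 ψ w = dif Ψ eAlong w.1 := fun w => by
    rw [grad0, he _ (along_mem w.2).1, he _ (along_mem w.2).2, dif]; ring
  rw [← sum_W (T := T) fun w => dif (upot w') eAlong w * dif Ψ eAlong w, ← hd, ← pot0_id w' ψ]
  exact sum_congr rfl fun w _ => by rw [hd, grad0_eq]; rfl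

/-- the ring of corners at distance `2k` -/
def OnRing (c : Pt) (k : ℕ) (p : Pt) : Prop :=
  Even p.1 ∧ Even p.2 ∧ InBox c (2 * k) p ∧ ¬InBox c (2 * k - 1) p

lemma max_mono_sq (a b m : ℝ) : (max (a - m) 0 - max (b - m) 0) ^ 2 ≤ (a - b) * (max (a - m) 0 - max (b - m) 0) := by
  rcases le_total (a - m) 0 with h | h <;> rcases le_total (b - m) 0 with h' | h' <;> simp [h, h'] <;> nlinarith

include hs in
/-- the potential takes both signs on each ring around its source -/
lemma ring_sign (w' : T.W) (hw : InBox c (5 * M) w'.1) {k : ℕ} (hk1 : 5 * M + 1 ≤ 2 * k) (hk2 : 2 * k ≤ 8 * M + 4)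
    (s : ℝ) : ∃ p, OnRing c k p ∧ 0 ≤ s * upot w' p := by
  have hs' := hs
  obtain ⟨hc1, hc2, hM, -⟩ := hs
  by_contra hcon
  push Not at hcon
  have hring : ∀ p, OnRing c k p → p ∈ (corners T.S).erase T.root := fun p ⟨a, b, h, _⟩ =>
    corner_safe hs' a b ⟨h.1.trans (by exact_mod_cast hk2), h.2.trans (by exact_mod_cast hk2)⟩
  have hp0 : OnRing c k (c + ((2 * k : ℤ), 0)) := by
    refine ⟨?_, ?_, ?_, ?_⟩ <;> simp [InBox, hc1, hc2, parity_simps]
    omega
  set R := ((corners T.S).erase T.root).filter (OnRing c k)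
  obtain ⟨q, hq, hmax⟩ := R.exists_max_image (fun p => s * upot w' p) ⟨_, mem_filter.2 ⟨hring _ hp0, hp0⟩⟩
  set m := s * upot w' q
  have hm : m < 0 := hcon q (mem_filter.1 hq).2
  set Ψ := fun p : Pt => if InBox c (2 * k) p then 0 else max (s * upot w' p - m) 0
  have hR : ∀ p, OnRing c k p → max (s * upot w' p - m) 0 = 0 := fun p hp =>
    max_eq_right (by linarith [hmax p (mem_filter.2 ⟨hring p hp, hp⟩)])
  have he : ∀ w : T.W, dif Ψ eAlong w.1 ^ 2 ≤ s * dif (upot w') eAlong w.1 * dif Ψ eAlong w.1 := fun w => by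
    obtain ⟨ha, hb⟩ := along_mem w.2
    have cross : ∀ a b : Pt, Even a.1 → Even a.2 → InBox c (2 * k) a → ¬InBox c (2 * k) b →
        |a.1 - b.1| ≤ 2 → |a.2 - b.2| ≤ 2 → OnRing c k a := fun a b p1 p2 hA hB d1 d2 => by
      refine ⟨p1, p2, hA, fun hc' => hB ?_⟩
      rw [Int.even_iff] at p1 p2 hc1 hc2
      rw [InBox, abs_le, abs_le] at hc' ⊢
      rw [abs_le] at d1 d2
      push_cast [Nat.cast_sub (show 1 ≤ 2 * k by omega)] at hc' ⊢
      omega
    obtain ⟨pa1, pa2⟩ := corners_par ha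
    obtain ⟨pb1, pb2⟩ := corners_par hb
    have d1 : |(w.1 + eAlong w.1).1 - (w.1 - eAlong w.1).1| ≤ 2 ∧ |(w.1 + eAlong w.1).2 - (w.1 - eAlong w.1).2| ≤ 2 := by
      unfold eAlong; split_ifs <;> simp [abs_le] <;> omega
    simp only [dif, Ψ, mul_sub]
    split_ifs with h1 h2 h2
    · simp
    · have := hR _ (cross _ _ pa1 pa2 h1 h2 d1.1 d1.2)
      have h' := max_mono_sq (s * upot w' (w.1 + eAlong w.1)) (s * upot w' (w.1 - eAlong w.1)) m
      rw [this] at h'; linarith
    · have := hR _ (cross _ _ pb1 pb2 h2 h1 (by rw [abs_sub_comm]; exact d1.1) (by rw [abs_sub_comm]; exact d1.2))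
      have h' := max_mono_sq (s * upot w' (w.1 + eAlong w.1)) (s * upot w' (w.1 - eAlong w.1)) m
      rw [this] at h'; linarith
    · linarith [max_mono_sq (s * upot w' (w.1 + eAlong w.1)) (s * upot w' (w.1 - eAlong w.1)) m]
  have hw0 : dif Ψ eAlong w'.1 = 0 := by
    have hin : ∀ d : Pt, |d.1| ≤ 1 → |d.2| ≤ 1 → InBox c (2 * k) (w'.1 + d) := fun d d1 d2 => by
      rw [InBox, abs_le, abs_le] at hw ⊢
      rw [abs_le] at d1 d2
      push_cast at hw ⊢
      simp only [Prod.fst_add, Prod.snd_add]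
      omega
    have h1 : InBox c (2 * k) (w'.1 + eAlong w'.1) := hin _ (by unfold eAlong; split_ifs <;> simp) (by unfold eAlong; split_ifs <;> simp)
    have h2 : InBox c (2 * k) (w'.1 - eAlong w'.1) := by
      rw [sub_eq_add_neg]
      exact hin _ (by unfold eAlong; split_ifs <;> simp) (by unfold eAlong; split_ifs <;> simp)
    simp [dif, Ψ, h1, h2]
  have hz : ∀ w : T.W, dif Ψ eAlong w.1 = 0 := fun w => by
    have hsum : ∑ x : T.W, dif Ψ eAlong x.1 ^ 2 ≤ 0 := by
      refine (sum_le_sum fun x _ => he x).trans_eq ?_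
      rw [sum_W (T := T) fun x => s * dif (upot w') eAlong x * dif Ψ eAlong x]
      simp only [mul_assoc]
      rw [← mul_sum, upot_id, hw0, mul_zero]
    exact sq_eq_zero_iff.1 (le_antisymm ((single_le_sum (fun x _ => sq_nonneg (dif Ψ eAlong x.1)) (mem_univ w)).trans hsum)
      (sq_nonneg _))
  have hψ : (fun a : T.B0 => Ψ a.1 - Ψ T.root) = 0 := grad0_inj fun w => by
    have hd : grad0 (fun a : T.B0 => Ψ a.1 - Ψ T.root) w = dif Ψ eAlong w.1 := by
      have he' : ∀ p ∈ corners T.S, ext (fun a : T.B0 => Ψ a.1 - Ψ T.root) p = Ψ p - Ψ T.root := fun p hp => by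
        by_cases hr : p = T.root
        · subst hr; rw [ext_not _ (by simp), sub_self]
        · exact ext_mem (fun a : T.B0 => Ψ a.1 - Ψ T.root) ⟨p, mem_erase.2 ⟨hr, hp⟩⟩
      rw [grad0, he' _ (along_mem w.2).1, he' _ (along_mem w.2).2, dif]; ring
    rw [hd, hz]
  have hq' := congrFun hψ ⟨q, (mem_filter.1 hq).1⟩
  have hout : ¬InBox c (2 * k) T.root := fun h => by
    obtain ⟨r1, r2⟩ := corners_par T.root_mem
    have := corner_safe hs' r1 r2 ⟨h.1.trans (by exact_mod_cast hk2), h.2.trans (by exact_mod_cast hk2)⟩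
    simp at this
  have hu0 : upot w' T.root = 0 := ext_not _ (by simp)
  simp only [Ψ, Pi.zero_apply, if_pos (mem_filter.1 hq).2.2.2.1, if_neg hout, hu0, mul_zero, zero_sub] at hq'
  rw [max_eq_left (by linarith)] at hq'
  linarith

/-- total variation along a segment -/
def seg (u : Pt → ℝ) (o e : Pt) (n : ℕ) : ℝ :=
  ∑ i ∈ range n, |u (o + (((i : ℤ) + 1) • (e + e))) - u (o + ((i : ℤ) • (e + e)))|

lemma seg_bound (u : Pt → ℝ) (o e : Pt) {n j : ℕ} (h : j ≤ n) : |u (o + ((j : ℤ) • (e + e))) - u o| ≤ seg u o e n := by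
  have tel := sum_range_sub (fun i : ℕ => u (o + ((i : ℤ) • (e + e)))) j
  simp only [Nat.cast_zero, zero_smul, add_zero, Nat.cast_add, Nat.cast_one] at tel
  rw [← tel]
  exact (abs_sum_le_sum_abs _ _).trans (sum_le_sum_of_subset_of_nonneg (range_mono h) fun i _ _ => abs_nonneg _)

/-- the four segments of a ring -/
def sides (c : Pt) (k : ℕ) : Fin 4 → Pt × Pt :=
  ![(c + (-2 * (k : ℤ), -2 * (k : ℤ)), (1, 0)), (c + (-2 * (k : ℤ), 2 * (k : ℤ)), (1, 0)),
    (c + (-2 * (k : ℤ), -2 * (k : ℤ)), (0, 1)), (c + (2 * (k : ℤ), -2 * (k : ℤ)), (0, 1))]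

include hs in
/-- the squares on a ring are bounded by the energy of its sides -/
lemma ring_sq (w' : T.W) (hw : InBox c (5 * M) w'.1) {k : ℕ} (hk1 : 5 * M + 1 ≤ 2 * k) (hk2 : 2 * k ≤ 8 * M + 4) :
    ∑ p ∈ ((corners T.S).erase T.root).filter (OnRing c k), upot w' p ^ 2 ≤
      128 * (k : ℝ) * (2 * k + 1) * ∑ t : Fin 4, ∑ i ∈ range (2 * k),
        dif (upot w') eAlong ((sides c k t).1 + ((2 * (i : ℤ) + 1) • (sides c k t).2)) ^ 2 := by
  set u := upot w'
  obtain ⟨hc1, hc2, hM, -⟩ := id hs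
  set o := c + ((-2 * (k : ℤ), -2 * (k : ℤ)) : Pt) with ho
  set V := fun t : Fin 4 => seg u (sides c k t).1 (sides c k t).2 (2 * k)
  have nV : ∀ t, 0 ≤ V t := fun t => sum_nonneg fun i _ => abs_nonneg _
  set pts := fun t : Fin 4 => (range (2 * k + 1)).image fun j : ℕ => (sides c k t).1 + ((j : ℤ) • ((sides c k t).2 + (sides c k t).2))
  have cover : ∀ p, OnRing c k p → ∃ t, p ∈ pts t := by
    rintro p ⟨p1, p2, h, h'⟩
    rw [Int.even_iff] at p1 p2 hc1 hc2
    rw [InBox, abs_le, abs_le] at h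
    rw [InBox, abs_le, abs_le] at h'
    push_cast [Nat.cast_sub (show 1 ≤ 2 * k by omega)] at h h'
    simp only [pts, mem_image, mem_range]
    by_cases q1 : p.2 = c.2 - 2 * (k : ℤ)
    · exact ⟨0, ((p.1 - c.1 + 2 * k) / 2).toNat, by omega, by simp [sides, Prod.ext_iff]; omega⟩
    by_cases q2 : p.2 = c.2 + 2 * (k : ℤ)
    · exact ⟨1, ((p.1 - c.1 + 2 * k) / 2).toNat, by omega, by simp [sides, Prod.ext_iff]; omega⟩
    by_cases q3 : p.1 = c.1 - 2 * (k : ℤ)
    · exact ⟨2, ((p.2 - c.2 + 2 * k) / 2).toNat, by omega, by simp [sides, Prod.ext_iff]; omega⟩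
    exact ⟨3, ((p.2 - c.2 + 2 * k) / 2).toNat, by omega, by simp [sides, Prod.ext_iff]; omega⟩
  have near : ∀ p, OnRing c k p → |u p - u o| ≤ ∑ t, V t := by
    intro p hp
    obtain ⟨t, ht⟩ := cover p hp
    simp only [pts, mem_image, mem_range] at ht
    obtain ⟨j, hj, rfl⟩ := ht
    have h := seg_bound u (sides c k t).1 (sides c k t).2 (Nat.le_of_lt_succ hj)
    have e1 : |u (sides c k 1).1 - u o| ≤ V 2 := by
      have := seg_bound u (sides c k 2).1 (sides c k 2).2 le_rfl (n := 2 * k)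
      refine le_of_eq_of_le ?_ this
      congr 2 <;> congr 1 <;> simp [sides, Prod.ext_iff]
      ring
    have e3 : |u (sides c k 3).1 - u o| ≤ V 0 := by
      have := seg_bound u (sides c k 0).1 (sides c k 0).2 le_rfl (n := 2 * k)
      refine le_of_eq_of_le ?_ this
      congr 2 <;> congr 1 <;> simp [sides, Prod.ext_iff]
      ring
    have tri := abs_sub_le (u ((sides c k t).1 + (j : ℤ) • ((sides c k t).2 + (sides c k t).2))) (u (sides c k t).1) (u o)
    rw [Fin.sum_univ_four]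
    have := nV 0; have := nV 1; have := nV 2; have := nV 3
    have base : ∀ t', |u (sides c k t').1 - u o| + V t' ≤ V 0 + V 1 + V 2 + V 3 := fun t' => by
      match t' with
      | 0 => rw [show (sides c k 0).1 = o from rfl, sub_self, abs_zero]; linarith
      | 1 => linarith
      | 2 => rw [show (sides c k 2).1 = o from rfl, sub_self, abs_zero]; linarith
      | 3 => linarith
    have := base t
    linarith
  obtain ⟨qp, hqp, hp0⟩ := ring_sign hs w' hw hk1 hk2 1
  obtain ⟨qn, hqn, hn0⟩ := ring_sign hs w' hw hk1 hk2 (-1)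
  have ubd : ∀ p, OnRing c k p → |u p| ≤ 2 * ∑ t, V t := fun p hp => by
    have a := abs_le.1 (near p hp); have b := abs_le.1 (near qp hqp); have d := abs_le.1 (near qn hqn)
    rw [abs_le]; constructor <;> linarith
  have hV : (∑ t, V t) ^ 2 ≤ 8 * (k : ℝ) * ∑ t : Fin 4, ∑ i ∈ range (2 * k),
      dif u eAlong ((sides c k t).1 + ((2 * (i : ℤ) + 1) • (sides c k t).2)) ^ 2 := by
    refine (sq_sum_le_card_mul_sum_sq).trans ?_
    rw [card_univ, Fintype.card_fin, Nat.cast_ofNat, show 8 * (k : ℝ) = (4 : ℝ) * (2 * k) by ring, mul_assoc 4 (2 * (k : ℝ))]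
    refine mul_le_mul_of_nonneg_left ?_ (by norm_num)
    rw [mul_sum]
    refine sum_le_sum fun t _ => ?_
    refine (sq_sum_le_card_mul_sum_sq).trans_eq ?_
    rw [card_range]
    push_cast
    congr 1
    refine sum_congr rfl fun i _ => ?_
    have oe : eAlong ((sides c k t).1 + ((2 * (i : ℤ) + 1) • (sides c k t).2)) = (sides c k t).2 := by
      rw [Int.even_iff] at hc1
      fin_cases t <;> simp [sides, eAlong, Int.odd_iff] <;> omega
    rw [sq_abs, dif, oe]
    congr 3 <;> simp [Prod.ext_iff] <;> constructor <;> ring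
  have hcard : (((corners T.S).erase T.root).filter (OnRing c k)).card ≤ 4 * (2 * k + 1) := by
    refine (card_le_card (t := univ.biUnion pts) fun p hp => ?_).trans ?_
    · simpa using cover p (mem_filter.1 hp).2
    · refine card_biUnion_le.trans ((sum_le_sum fun t _ => card_image_le).trans ?_)
      simp
  calc _ ≤ ∑ p ∈ ((corners T.S).erase T.root).filter (OnRing c k), (2 * ∑ t, V t) ^ 2 :=
        sum_le_sum fun p hp => by
          rw [← sq_abs]; exact pow_le_pow_left₀ (abs_nonneg _) (ubd p (mem_filter.1 hp).2) 2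
    _ ≤ ((4 * (2 * k + 1) : ℕ) : ℝ) * (2 * ∑ t, V t) ^ 2 := by
        rw [sum_const, nsmul_eq_mul]; exact mul_le_mul_of_nonneg_right (Nat.cast_le.2 hcard) (sq_nonneg _)
    _ ≤ _ := by
        push_cast
        calc 4 * (2 * (k : ℝ) + 1) * (2 * ∑ t, V t) ^ 2 = 16 * (2 * (k : ℝ) + 1) * (∑ t, V t) ^ 2 := by ring
          _ ≤ 16 * (2 * (k : ℝ) + 1) * (8 * (k : ℝ) * _) := mul_le_mul_of_nonneg_left hV (by positivity)
          _ = _ := by ring

/-- the annulus carrying the cutoff -/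
def band (T : TGraph) (c : Pt) (M : ℕ) : Finset Pt :=
  ((corners T.S).erase T.root).filter fun p => InBox c (8 * M + 2) p ∧ ¬InBox c (7 * M - 2) p

include hs in
lemma band_sq (w' : T.W) (hw : InBox c (5 * M) w'.1) :
    (M : ℝ) ^ 2 * ∑ p ∈ band T c M, upot w' p ^ 2 ≤ 64000 * mom4 w' := by
  set u := upot w'
  obtain ⟨hc1, hc2, hM, -⟩ := id hs
  set K := (range (4 * M + 2)).filter fun k => 7 * M - 2 < 2 * k
  have hK : ∀ k ∈ K, 5 * M + 1 ≤ 2 * k ∧ 2 * k ≤ 8 * M + 2 := fun k hk => by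
    simp only [K, mem_filter, mem_range] at hk; omega
  set Z := fun (k : ℕ) (t : Fin 4) (i : ℕ) => (sides c k t).1 + ((2 * (i : ℤ) + 1) • (sides c k t).2)
  set F := fun w : Pt => dst w w'.1 ^ 4 * dif u eAlong w ^ 2
  have hF : ∑ w ∈ mids T.S, F w = mom4 w' := by
    rw [← sum_W (T := T) F, mom4]
    refine sum_congr rfl fun w _ => ?_
    by_cases h : w = w'
    · subst h; simp [F, dst_self]
    · have := pot_add w' w
      rw [if_neg h, grad0_eq] at this
      simp only [F, u, upot]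
      rw [show dif (ext (pot0 w')) eAlong w.1 = -grad1 (pot1 w') w by linarith]
      ring
  have h1 : ∑ p ∈ band T c M, u p ^ 2 ≤
      ∑ k ∈ K, ∑ p ∈ ((corners T.S).erase T.root).filter (OnRing c k), u p ^ 2 := by
    rw [← sum_biUnion fun a _ b _ hab => disjoint_left.2 fun p ha hb => hab (by
      obtain ⟨-, -, -, x, x'⟩ := mem_filter.1 ha
      obtain ⟨-, -, -, y, y'⟩ := mem_filter.1 hb
      rw [InBox, abs_le, abs_le] at x x' y y'
      omega)]
    refine sum_le_sum_of_subset_of_nonneg (fun p hp => ?_) fun p _ _ => sq_nonneg _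
    obtain ⟨hp, hin, hout⟩ := mem_filter.1 hp
    obtain ⟨p1, p2⟩ := corners_par (mem_of_mem_erase hp)
    simp only [mem_biUnion, mem_filter]
    refine ⟨(max |p.1 - c.1| |p.2 - c.2|).toNat / 2, ?_, hp, p1, p2, ?_⟩
    all_goals
      simp only [InBox, K, mem_filter, mem_range, abs_eq_max_neg] at hin hout ⊢
      rw [Int.even_iff] at p1 p2 hc1 hc2
      omega
  have h2 : ∀ k ∈ K, ∑ p ∈ ((corners T.S).erase T.root).filter (OnRing c k), u p ^ 2 ≤
      8000 * (M : ℝ) ^ 2 * ∑ t : Fin 4, ∑ i ∈ range (2 * k), dif u eAlong (Z k t i) ^ 2 := fun k hk => by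
    refine (ring_sq hs w' hw (hK k hk).1 ((hK k hk).2.trans (by omega))).trans
      (mul_le_mul_of_nonneg_right ?_ (sum_nonneg fun t _ => sum_nonneg fun i _ => sq_nonneg _))
    have a : (2 : ℝ) * k ≤ 8 * M + 2 := by exact_mod_cast (hK k hk).2
    have b : (2 : ℝ) ≤ M := by exact_mod_cast hM
    nlinarith
  have h3 : ∀ t : Fin 4, ∑ k ∈ K, ∑ i ∈ range (2 * k), (M : ℝ) ^ 4 * dif u eAlong (Z k t i) ^ 2 ≤ mom4 w' := fun t => by
    rw [← hF, sum_sigma']
    refine le_trans (sum_le_sum fun x hx => ?_) (sum_inj_le (K.sigma fun k => range (2 * k))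
      (fun x : (_ : ℕ) × ℕ => Z x.1 t x.2) (mids T.S) F ?_ (fun w => by positivity) ?_)
    · obtain ⟨hk, hi⟩ := mem_sigma.1 hx
      refine mul_le_mul_of_nonneg_right (pow_le_pow_left₀ (Nat.cast_nonneg _) ?_ 4) (sq_nonneg _)
      rw [dst_eq_cast, show (M : ℝ) = ((M : ℤ) : ℝ) by simp, Int.cast_le]
      obtain ⟨k, i⟩ := x
      simp only [mem_range] at hi hk
      simp only [K, mem_filter, mem_range] at hk
      rw [InBox, abs_le, abs_le] at hw
      fin_cases t <;> simp [Z, sides, abs_eq_max_neg] <;> omega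
    · rintro ⟨k, i⟩ hx ⟨k', i'⟩ hy e
      simp only [mem_sigma, mem_range] at hx hy
      have e1 := congrArg Prod.fst e
      have e2 := congrArg Prod.snd e
      obtain ⟨rfl, rfl⟩ : k = k' ∧ i = i' := by
        fin_cases t <;> simp [Z, sides] at e1 e2 <;> omega
      rfl
    · rintro ⟨k, i⟩ hx -
      obtain ⟨hk, hi⟩ := mem_sigma.1 hx
      simp only [mem_range] at hi
      have := hK k hk
      refine mid_safe hs ?_ ?_
      · rw [Int.even_iff] at hc1 hc2
        fin_cases t <;> simp [Z, sides, Int.odd_iff, Int.even_iff] <;> omega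
      · fin_cases t <;> simp [Z, sides, InBox, abs_le] <;> omega
  have h5 : ∑ k ∈ K, ∑ t : Fin 4, ∑ i ∈ range (2 * k), (M : ℝ) ^ 4 * dif u eAlong (Z k t i) ^ 2 ≤ 4 * mom4 w' := by
    rw [sum_comm]
    refine (sum_le_sum fun t _ => h3 t).trans_eq ?_
    simp
  have h6 : (M : ℝ) ^ 2 * ∑ p ∈ band T c M, u p ^ 2 ≤
      8000 * ∑ k ∈ K, ∑ t : Fin 4, ∑ i ∈ range (2 * k), (M : ℝ) ^ 4 * dif u eAlong (Z k t i) ^ 2 := by
    refine (mul_le_mul_of_nonneg_left (h1.trans (sum_le_sum h2)) (sq_nonneg _)).trans_eq ?_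
    simp only [mul_sum]
    refine sum_congr rfl fun k _ => sum_congr rfl fun t _ => sum_congr rfl fun i _ => ?_
    ring
  have : 0 ≤ mom4 w' := sum_nonneg fun w _ => mul_nonneg (pow_nonneg (dst_nonneg _ _) 4) (sq_nonneg _)
  linarith

/-- one-dimensional Hardy inequality with no lower-order term -/
lemma hardy (t0 : ℝ) (g : ℕ → ℝ) (L : ℕ) (h0 : g 0 = 0) (hL : g L = 0) :
    5 * ∑ k ∈ range L, (t0 + 2 * k) ^ 2 * g k ^ 2 ≤
      2 * ∑ k ∈ range L, (t0 + 2 * k + 1) ^ 4 * (g (k + 1) - g k) ^ 2 := by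
  have tel := sum_range_sub (fun k => (t0 + 2 * k - 1) ^ 3 * g k ^ 2) L
  simp only [h0, hL, ne_eq, OfNat.ofNat_ne_zero, not_false_eq_true, zero_pow, mul_zero, sub_self,
    Nat.cast_add, Nat.cast_one] at tel
  set N := fun k : ℕ => ((t0 + 2 * k) ^ 2 + 1) * g k ^ 2
  have sh := sum_range_sub N L
  simp only [N, h0, hL, ne_eq, OfNat.ofNat_ne_zero, not_false_eq_true, zero_pow, mul_zero, sub_self,
    Nat.cast_add, Nat.cast_one, sum_sub_distrib] at sh
  have key : ∀ k ∈ range L,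
      (5 * ((t0 + 2 * k) ^ 2 * g k ^ 2) + g k ^ 2) - ((t0 + 2 * ((k : ℝ) + 1) - 1) ^ 3 * g (k + 1) ^ 2 - (t0 + 2 * k - 1) ^ 3 * g k ^ 2) ≤
      2 * ((t0 + 2 * k + 1) ^ 4 * (g (k + 1) - g k) ^ 2) +
        (1 / 2) * (((t0 + 2 * ((k : ℝ) + 1)) ^ 2 + 1) * g (k + 1) ^ 2) - (1 / 2) * (((t0 + 2 * k) ^ 2 + 1) * g k ^ 2) := fun k _ => by
    set s := t0 + 2 * (k : ℝ) + 1
    rw [show t0 + 2 * ((k : ℝ) + 1) = s + 1 by ring, show t0 + 2 * (k : ℝ) = s - 1 by ring]
    set a := g k
    set b := g (k + 1)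
    nlinarith [sq_nonneg (4 * s ^ 2 * (b - a) + s * (a + b)), mul_nonneg (sq_nonneg s) (sq_nonneg (a - b)),
      mul_nonneg (sq_nonneg (s - 2)) (sq_nonneg a), mul_nonneg (sq_nonneg (s + 2)) (sq_nonneg b)]
  have h := sum_le_sum key
  simp only [sum_add_distrib, sum_sub_distrib, ← mul_sum] at h
  rw [sum_sub_distrib] at tel
  have n1 : 0 ≤ ∑ k ∈ range L, g k ^ 2 := sum_nonneg fun k _ => sq_nonneg _
  linarith

include hs in
/-- the second moment of the corner part of a column inside the square -/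
lemma pot0_bound (w' : T.W) (hw : InBox c (5 * M) w'.1) :
    ∑ a ∈ univ.filter (fun a : T.B0 => InBox c (6 * M) a.1), dst a.1 w'.1 ^ 2 * pot0 w' a ^ 2 ≤
      300000000000 * mom4 w' := by
  obtain ⟨hc1, hc2, hM, -⟩ := id hs
  set u := upot w'
  have hMr : (2 : ℝ) ≤ M := by exact_mod_cast hM
  set η := fun p : Pt => ramp (8 * (M : ℝ)) M (dst p c)
  set g := fun p : Pt => η p * u p
  have gout : ∀ p, 8 * (M : ℝ) ≤ dst p c → g p = 0 := fun p h => by
    simp [g, η, ramp_eq_zero (show (0:ℝ) < M by linarith) h]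
  set K : ℕ := 4 * M + 1
  set P := fun i j : ℕ => c + ((2 * (i : ℤ) - 2 * K, 2 * (j : ℤ) - 2 * K) : Pt)
  set F := fun w : Pt => dst w w'.1 ^ 4 * dif g eAlong w ^ 2
  have gedge : ∀ i j, i = 0 ∨ i = 2 * K ∨ j = 0 ∨ j = 2 * K → g (P i j) = 0 := fun i j h => gout _ (by
    rw [dst_eq_cast, show (8 : ℝ) * M = ((8 * M : ℤ) : ℝ) by simp, Int.cast_le]
    simp only [P, Prod.fst_add, Prod.snd_add, abs_eq_max_neg]
    rcases h with h | h | h | h <;> subst h <;> simp only [K] <;> push_cast <;> omega)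
  have memq : ∀ q : Pt, (Odd q.1 ∧ Even q.2 ∨ Even q.1 ∧ Odd q.2) → F q ≠ 0 → q ∈ mids T.S := fun q hpar hq => by
    by_contra hn
    refine hq ?_
    have hfar : ¬InBox c (8 * M + 3) q := fun hb => hn (mid_safe hs hpar hb)
    rw [← dst_le_cast] at hfar
    push Not at hfar
    push_cast at hfar
    obtain ⟨e1, e2⟩ := dst_add_along q
    have := dst_triangle q (q + eAlong q) c
    have := dst_triangle q (q - eAlong q) c
    rw [dst_comm q (q + _)] at *
    rw [dst_comm q (q - _)] at *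
    simp only [F, dif]
    rw [gout _ (by linarith), gout _ (by linarith), sub_self]
    ring
  have hrow : ∀ j, 5 * ∑ i ∈ range (2 * K), (((P i j).1 : ℝ) - w'.1.1) ^ 2 * g (P i j) ^ 2 ≤
      2 * ∑ i ∈ range (2 * K), F (P i j + (1, 0)) := fun j => by
    have h := hardy ((c.1 : ℝ) - 2 * K - w'.1.1) (fun i => g (P i j)) (2 * K) (gedge _ _ (Or.inl rfl))
      (gedge _ _ (Or.inr (Or.inl rfl)))
    refine le_of_eq_of_le (congrArg _ (sum_congr rfl fun i _ => ?_)) (h.trans (mul_le_mul_of_nonneg_left (sum_le_sum fun i _ => ?_) (by norm_num)))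
    · simp only [P, Prod.fst_add]; push_cast; ring
    · have o : Odd (P i j + (1, 0)).1 := by
        rw [Int.even_iff] at hc1
        simp only [P, Prod.fst_add, Int.odd_iff]; omega
      simp only [F, dif, eAlong, if_pos o, add_sub_cancel_right]
      rw [show P i j + (1, 0) + (1, 0) = P (i + 1) j by simp [P, Prod.ext_iff]; ring]
      refine mul_le_mul_of_nonneg_right ?_ (sq_nonneg _)
      rw [← Even.pow_abs (show Even 4 by decide)]
      refine pow_le_pow_left₀ (abs_nonneg _) (le_trans (le_of_eq (congrArg _ ?_)) (le_max_left _ _)) 4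
      simp only [P, Prod.fst_add]; push_cast; ring
  have hcol : ∀ i, 5 * ∑ j ∈ range (2 * K), (((P i j).2 : ℝ) - w'.1.2) ^ 2 * g (P i j) ^ 2 ≤
      2 * ∑ j ∈ range (2 * K), F (P i j + (0, 1)) := fun i => by
    have h := hardy ((c.2 : ℝ) - 2 * K - w'.1.2) (fun j => g (P i j)) (2 * K) (gedge _ _ (Or.inr (Or.inr (Or.inl rfl))))
      (gedge _ _ (Or.inr (Or.inr (Or.inr rfl))))
    refine le_of_eq_of_le (congrArg _ (sum_congr rfl fun j _ => ?_)) (h.trans (mul_le_mul_of_nonneg_left (sum_le_sum fun j _ => ?_) (by norm_num)))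
    · simp only [P, Prod.snd_add]; push_cast; ring
    · have o : ¬Odd (P i j + (0, 1)).1 := by
        rw [Int.even_iff] at hc1
        simp only [P, Prod.fst_add, Int.odd_iff]; omega
      simp only [F, dif, eAlong, if_neg o, add_sub_cancel_right]
      rw [show P i j + (0, 1) + (0, 1) = P i (j + 1) by simp [P, Prod.ext_iff]; ring]
      refine mul_le_mul_of_nonneg_right ?_ (sq_nonneg _)
      rw [← Even.pow_abs (show Even 4 by decide)]
      refine pow_le_pow_left₀ (abs_nonneg _) (le_trans (le_of_eq (congrArg _ ?_)) (le_max_right _ _)) 4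
      simp only [P, Prod.snd_add]; push_cast; ring
  set G := ∑ w ∈ mids T.S, F w
  have injP : ∀ d : Pt, ∀ x ∈ range (2 * K) ×ˢ range (2 * K), ∀ y ∈ range (2 * K) ×ˢ range (2 * K),
      P x.1 x.2 + d = P y.1 y.2 + d → x = y := fun d x _ y _ e => by
    simp [P, Prod.ext_iff] at e ⊢; exact e
  have hG1 : ∑ x ∈ range (2 * K) ×ˢ range (2 * K), F (P x.1 x.2 + (1, 0)) ≤ G :=
    sum_inj_le _ (fun x : ℕ × ℕ => P x.1 x.2 + (1, 0)) _ F (injP _) (fun w => by positivity) fun x _ h => memq _ (Or.inl (by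
      rw [Int.even_iff] at hc1 hc2
      simp only [P, Prod.fst_add, Prod.snd_add, Int.odd_iff, Int.even_iff]; omega)) h
  have hG2 : ∑ x ∈ range (2 * K) ×ˢ range (2 * K), F (P x.1 x.2 + (0, 1)) ≤ G :=
    sum_inj_le _ (fun x : ℕ × ℕ => P x.1 x.2 + (0, 1)) _ F (injP _) (fun w => by positivity) fun x _ h => memq _ (Or.inr (by
      rw [Int.even_iff] at hc1 hc2
      simp only [P, Prod.fst_add, Prod.snd_add, Int.odd_iff, Int.even_iff]; omega)) h
  rw [sum_product_right] at hG1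
  rw [sum_product] at hG2
  have hx := (sum_le_sum fun j (_ : j ∈ range (2 * K)) => hrow j)
  have hy := (sum_le_sum fun i (_ : i ∈ range (2 * K)) => hcol i)
  rw [← mul_sum, ← mul_sum] at hx hy
  rw [← sum_product_right (range (2 * K)) (range (2 * K)) fun x => (((P x.1 x.2).1 : ℝ) - w'.1.1) ^ 2 * g (P x.1 x.2) ^ 2] at hx
  rw [← sum_product (range (2 * K)) (range (2 * K)) fun x => (((P x.1 x.2).2 : ℝ) - w'.1.2) ^ 2 * g (P x.1 x.2) ^ 2] at hy
  have hin : ∑ a ∈ univ.filter (fun a : T.B0 => InBox c (6 * M) a.1), dst a.1 w'.1 ^ 2 * pot0 w' a ^ 2 ≤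
      ∑ x ∈ range (2 * K) ×ˢ range (2 * K), dst (P x.1 x.2) w'.1 ^ 2 * g (P x.1 x.2) ^ 2 := by
    have e : ∀ a ∈ univ.filter (fun a : T.B0 => InBox c (6 * M) a.1),
        dst a.1 w'.1 ^ 2 * pot0 w' a ^ 2 = dst a.1 w'.1 ^ 2 * g a.1 ^ 2 := fun a ha => by
      have := dst_le_cast.2 (mem_filter.1 ha).2
      push_cast at this
      simp [g, η, ramp_eq_one (show (0:ℝ) < M by linarith) (show dst a.1 c ≤ 8 * (M:ℝ) - M by linarith), u, upot, ext_mem]
    rw [sum_congr rfl e, ← sum_image (f := fun p => dst p w'.1 ^ 2 * g p ^ 2) fun a _ b _ h => Subtype.ext h,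
      ← sum_image (f := fun p => dst p w'.1 ^ 2 * g p ^ 2) (g := fun x : ℕ × ℕ => P x.1 x.2) fun x hx y hy h =>
        injP 0 x hx y hy (by simp [h])]
    refine sum_le_sum_of_subset_of_nonneg (fun p hp => ?_) fun p _ _ => by positivity
    obtain ⟨a, ha, rfl⟩ := mem_image.1 hp
    obtain ⟨a1, a2⟩ := corners_par (mem_of_mem_erase a.2)
    have hb := (mem_filter.1 ha).2
    rw [InBox, abs_le, abs_le] at hb
    push_cast at hb
    rw [Int.even_iff] at a1 a2 hc1 hc2
    simp only [mem_image, mem_product, mem_range]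
    exact ⟨(((a.1.1 - c.1) / 2 + K).toNat, ((a.1.2 - c.2) / 2 + K).toNat), by simp only [K]; omega,
      by simp only [P, K, Prod.ext_iff, Prod.fst_add, Prod.snd_add]; omega⟩
  have hd2 : ∀ p : Pt, dst p w'.1 ^ 2 ≤ ((p.1 : ℝ) - w'.1.1) ^ 2 + ((p.2 : ℝ) - w'.1.2) ^ 2 := fun p => by
    rcases max_choice |(p.1 : ℝ) - w'.1.1| |(p.2 : ℝ) - w'.1.2| with h | h <;> rw [dst, h, sq_abs] <;>
      nlinarith [sq_nonneg ((p.1 : ℝ) - w'.1.1), sq_nonneg ((p.2 : ℝ) - w'.1.2)]
  have hsplit := sum_le_sum fun x (_ : x ∈ range (2 * K) ×ˢ range (2 * K)) =>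
    mul_le_mul_of_nonneg_right (hd2 (P x.1 x.2)) (sq_nonneg (g (P x.1 x.2)))
  simp only [add_mul, sum_add_distrib] at hsplit
  -- the gradient of the cut-off potential
  set Bf := fun p : Pt => if p ∈ band T c M then u p ^ 2 else 0
  have hu : ∀ w : T.W, dst w.1 w'.1 ^ 4 * dif u eAlong w.1 ^ 2 = dst w.1 w'.1 ^ 4 * grad1 (pot1 w') w ^ 2 := fun w => by
    by_cases h : w = w'
    · subst h; simp [dst_self]
    · have := pot_add w' w
      rw [if_neg h, grad0_eq] at this
      rw [show dif u eAlong w.1 = -grad1 (pot1 w') w by simp only [u, upot]; linarith]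
      ring
  have hkey : ∀ w : T.W, F w.1 ≤ 2 * (dst w.1 w'.1 ^ 4 * grad1 (pot1 w') w ^ 2) +
      405000 * (M : ℝ) ^ 2 * Bf (w.1 - eAlong w.1) := fun w => by
    rw [← hu]
    obtain ⟨e1, e2⟩ := dst_add_along w.1
    set a := w.1 + eAlong w.1 with hadef
    set b := w.1 - eAlong w.1 with hbdef
    have hab : dst a b ≤ 2 := by linarith [dst_triangle a w.1 b, dst_comm w.1 b]
    have hη : |η a - η b| ≤ 2 / M := ramp_lip (by linarith) ((dst_lip a b c).trans hab)
    have hdg : dif g eAlong w.1 = η a * dif u eAlong w.1 + (η a - η b) * u b := by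
      simp only [g, dif, ← hadef, ← hbdef]; ring
    have hBf : 0 ≤ Bf b := by positivity
    have hη1 : η a ^ 2 ≤ 1 := pow_le_one₀ (ramp_nonneg _ _ _) (ramp_le_one _ _ _)
    have n4 : 0 ≤ dst w.1 w'.1 ^ 4 := pow_nonneg (dst_nonneg _ _) 4
    simp only [F, hdg]
    by_cases heq : η a = η b
    · rw [heq, sub_self, zero_mul, add_zero]
      have : η b ^ 2 ≤ 1 := heq ▸ hη1
      nlinarith [mul_nonneg (sq_nonneg (M:ℝ)) hBf, mul_le_mul_of_nonneg_left
        (mul_le_of_le_one_left (sq_nonneg (dif u eAlong w.1)) this) n4, mul_nonneg n4 (sq_nonneg (dif u eAlong w.1))]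
    · have hb1 : 7 * (M : ℝ) - 2 < dst b c := by
        by_contra h
        push Not at h
        have : dst a c ≤ 8 * (M:ℝ) - M := by linarith [dst_triangle a b c]
        exact heq (by simp only [η]; rw [ramp_eq_one (by linarith) this, ramp_eq_one (by linarith) (by linarith)])
      have hb2 : dst b c < 8 * (M : ℝ) + 2 := by
        by_contra h
        push Not at h
        have : 8 * (M:ℝ) ≤ dst a c := by linarith [dst_triangle b a c, dst_comm a b]
        exact heq (by simp only [η]; rw [ramp_eq_zero (by linarith) this, ramp_eq_zero (by linarith) (by linarith)])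
      have hin' : InBox c (8 * M + 2) b := dst_le_cast.1 (by push_cast; linarith)
      have hband : b ∈ band T c M := by
        obtain ⟨b1, b2⟩ := corners_par (along_mem w.2).2
        refine mem_filter.2 ⟨corner_safe hs b1 b2 ⟨hin'.1.trans (by simp), hin'.2.trans (by simp)⟩, hin', fun h => ?_⟩
        have := dst_le_cast.2 h
        rw [Nat.cast_sub (by omega)] at this
        push_cast at this
        linarith
      simp only [Bf, if_pos hband]
      have hd : dst w.1 w'.1 ≤ 15 * M := by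
        have := dst_le_cast.2 hw
        push_cast at this
        linarith [dst_triangle w.1 b c, dst_triangle w.1 c w'.1, dst_comm c w'.1, dst_comm w.1 b]
      have hd4 : dst w.1 w'.1 ^ 4 ≤ (15 * (M:ℝ)) ^ 4 := pow_le_pow_left₀ (dst_nonneg _ _) hd 4
      have hη2 : (η a - η b) ^ 2 * (M:ℝ) ^ 2 ≤ 4 := by
        have h2 := pow_le_pow_left₀ (abs_nonneg _) hη 2
        rw [sq_abs, div_pow, le_div_iff₀ (by positivity)] at h2
        linarith
      calc dst w.1 w'.1 ^ 4 * (η a * dif u eAlong w.1 + (η a - η b) * u b) ^ 2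
          ≤ dst w.1 w'.1 ^ 4 * (2 * dif u eAlong w.1 ^ 2 + 2 * ((η a - η b) ^ 2 * u b ^ 2)) := by
            refine mul_le_mul_of_nonneg_left ?_ n4
            nlinarith [sq_nonneg (η a * dif u eAlong w.1 - (η a - η b) * u b),
              mul_le_of_le_one_left (sq_nonneg (dif u eAlong w.1)) hη1]
        _ ≤ _ := by
            rw [mul_add]
            refine add_le_add (le_of_eq (by ring)) ?_
            calc dst w.1 w'.1 ^ 4 * (2 * ((η a - η b) ^ 2 * u b ^ 2))
                ≤ (15 * (M:ℝ)) ^ 4 * (2 * ((η a - η b) ^ 2 * u b ^ 2)) := by gcongr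
              _ = 101250 * (M:ℝ) ^ 2 * u b ^ 2 * ((η a - η b) ^ 2 * (M:ℝ) ^ 2) := by ring
              _ ≤ 101250 * (M:ℝ) ^ 2 * u b ^ 2 * 4 := by gcongr
              _ = _ := by ring
  have hB : ∑ w : T.W, Bf (w.1 - eAlong w.1) ≤ 4 * ∑ p ∈ band T c M, u p ^ 2 := by
    rw [sum_W (T := T) fun w => Bf (w - eAlong w)]
    refine le_trans (sum_le_sum fun w _ => le_add_of_nonneg_left (by positivity))
      ((sum_ends (T := T) (t := band T c M) Bf (fun p => by positivity) (fun p hp => if_neg hp) eAlong eAlong_congr).trans_eq ?_)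
    simp [Bf]
  have hGle : G ≤ 2 * mom4 w' + 1620000 * ((M:ℝ) ^ 2 * ∑ p ∈ band T c M, u p ^ 2) := by
    simp only [G]
    rw [← sum_W (T := T) F]
    refine (sum_le_sum fun w _ => hkey w).trans ?_
    rw [sum_add_distrib, ← mul_sum, ← mul_sum]
    have := mul_le_mul_of_nonneg_left hB (by positivity : (0:ℝ) ≤ 405000 * (M:ℝ) ^ 2)
    simp only [mom4]
    linarith
  have := band_sq hs w' hw
  have n0 : 0 ≤ mom4 w' := sum_nonneg fun w _ => mul_nonneg (pow_nonneg (dst_nonneg _ _) 4) (sq_nonneg _)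
  linarith

end Vale.Agent.P155
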