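import Mathlib

/-!
# P155: double-dimer loops on Temperleyan graphs

The lattice is `ℤ²`, the coarse grid is `2ℤ²`. A coarse square is named by its centre (two odd
coordinates). The graph of a finite set `S` of coarse squares has the corners of the squares (minus
the root), the midpoints of their sides, and their centres as vertices, unit steps as edges.
-/

open Finset

noncomputable section

namespace Vale.Agent.P155

open scoped Classical

/-- lattice points -/
abbrev Pt := ℤ × ℤ

/-- unit steps -/
def Adj (p q : Pt) : Prop := |q.1 - p.1| + |q.2 - p.2| = 1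

/-- the four unit vectors -/
def nb4 : Finset Pt := {(1, 0), (-1, 0), (0, 1), (0, -1)}

/-- the four diagonal vectors -/
def dg4 : Finset Pt := {(1, 1), (-1, 1), (1, -1), (-1, -1)}

/-- midpoints of the sides of the squares -/
def mids (S : Finset Pt) : Finset Pt := S.biUnion fun f => nb4.image fun d => f + d

/-- corners of the squares -/
def corners (S : Finset Pt) : Finset Pt := S.biUnion fun f => dg4.image fun d => f + d

/-- one step between corners along a side -/
def Step (S : Finset Pt) (a a' : Pt) : Prop := ∃ w ∈ mids S, Adj w a ∧ a + a' = w + w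

/-- A Temperleyan graph: coarse squares, connected through their sides, with Euler characteristic
`1` (as for the closure of a lattice polygon), and a removed corner on the boundary. -/
structure TGraph where
  /-- the centres of the coarse squares -/
  S : Finset Pt
  /-- the removed corner -/
  root : Pt
  odd : ∀ f ∈ S, Odd f.1 ∧ Odd f.2
  root_mem : root ∈ corners S
  root_bd : ∃ d ∈ dg4, root + d ∉ S
  conn : ∀ a ∈ corners S, Relation.ReflTransGen (Step S) a root
  euler : (mids S).card + 1 = (corners S).card + S.card

variable (T : TGraph)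

/-- white vertices -/
abbrev TGraph.W : Type := {p : Pt // p ∈ mids T.S}

/-- corners kept -/
abbrev TGraph.B0 : Type := {p : Pt // p ∈ (corners T.S).erase T.root}

/-- centres -/
abbrev TGraph.B1 : Type := {p : Pt // p ∈ T.S}

/-- black vertices -/
abbrev TGraph.B : Type := T.B0 ⊕ T.B1

variable {T}

/-- position of a black vertex -/
def bpos : T.B → Pt := Sum.elim Subtype.val Subtype.val

variable (T)

/-- perfect matchings -/
def matchings : Finset (T.W ≃ T.B) := univ.filter fun σ => ∀ w : T.W, Adj w.1 (bpos (σ w))

variable {T}

/-- the white vertex after next along the superposition of two matchings -/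
def nxt (σ τ : T.W ≃ T.B) : Equiv.Perm T.W := σ.trans τ.symm

/-- the white vertices of the loop through `w` -/
def loopAt (σ τ : T.W ≃ T.B) (w : T.W) : Finset T.W :=
  univ.filter fun v => (nxt σ τ).SameCycle w v

/-- the loops, doubled edges included with area zero -/
def loops (σ τ : T.W ≃ T.B) : Finset (Finset T.W) := univ.image (loopAt σ τ)

/-- the signed enclosed area `∮ y dx` of a loop -/
def area (σ τ : T.W ≃ T.B) (O : Finset T.W) : ℝ :=
  ∑ w ∈ O, (w.1.2 : ℝ) * (((bpos (σ w)).1 : ℝ) - (bpos (τ w)).1)

/-- the circulation `∮ F dx` of a form along a loop -/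
def circ (σ τ : T.W ≃ T.B) (F : Pt → ℝ) (O : Finset T.W) : ℝ :=
  ∑ w ∈ O, F w.1 * (((bpos (σ w)).1 : ℝ) - (bpos (τ w)).1)

/-- the square of radius `m` around `c` -/
def InBox (c : Pt) (m : ℕ) (p : Pt) : Prop := |p.1 - c.1| ≤ m ∧ |p.2 - c.2| ≤ m

/-- the loop stays in the square -/
def Inside (σ : T.W ≃ T.B) (c : Pt) (m : ℕ) (O : Finset T.W) : Prop :=
  ∀ w ∈ O, InBox c m w.1 ∧ InBox c m (bpos (σ w))

/-- the loops inside a square -/
def loopsIn (σ τ : T.W ≃ T.B) (c : Pt) (m : ℕ) : Finset (Finset T.W) :=
  (loops σ τ).filter (Inside σ c m)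

variable (T) in
/-- every coarse square centred within `m` of the point is present -/
def Deep (m : ℕ) (p : Pt) : Prop := ∀ f : Pt, Odd f.1 → Odd f.2 → InBox p m f → f ∈ T.S

/-- the loops all of whose white vertices are deep -/
def loopsDeep (σ τ : T.W ≃ T.B) (m : ℕ) : Finset (Finset T.W) :=
  (loops σ τ).filter fun O => ∀ w ∈ O, Deep T m w.1

end Vale.Agent.P155
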