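import Vale.Agent.P155.Basic

/-!
# P155: weighted energy bounds for the centre part of the inverse Kasteleyn matrix

The centre part is a gradient of the Dirichlet Green function of the squares; truncations and a
lattice Sobolev inequality bound its square sum, and weighted identities bound the moments.
-/

open Finset Matrix

noncomputable section

namespace Vale.Agent.P155

open scoped Classical

variable {T : TGraph}

/-- the corner part of a column of the inverse -/
def pot0 (w' : T.W) (a : T.B0) : ℝ := kInv T (Sum.inl a) w'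

/-- the centre part of a column of the inverse -/
def pot1 (w' : T.W) (f : T.B1) : ℝ := kInv T (Sum.inr f) w'

lemma pot_add (w' w : T.W) : grad0 (pot0 w') w + grad1 (pot1 w') w = if w = w' then 1 else 0 := by
  have h := kas_mulVec (fun b => kInv T b w') w
  have h2 := congrFun₂ (kas_mul_inv (T := T)) w w'
  simp only [mul_apply, one_apply] at h2
  simp only [mulVec, dotProduct, h2] at h
  exact h.symm

lemma pot1_id (w' : T.W) (ψ : T.B1 → ℝ) :
    ∑ w, grad1 (pot1 w') w * grad1 ψ w = grad1 ψ w' := by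
  have e : ∀ w, grad1 (pot1 w') w * grad1 ψ w =
      (if w = w' then grad1 ψ w else 0) - grad0 (pot0 w') w * grad1 ψ w := fun w => by
    have := pot_add w' w
    split_ifs at this ⊢ <;> linear_combination grad1 ψ w * this
  simp only [e, sum_sub_distrib, grad_orth, sum_ite_eq', mem_univ, if_true, sub_zero]

lemma pot0_id (w' : T.W) (ψ : T.B0 → ℝ) :
    ∑ w, grad0 (pot0 w') w * grad0 ψ w = grad0 ψ w' := by
  have e : ∀ w, grad0 (pot0 w') w * grad0 ψ w =
      (if w = w' then grad0 ψ w else 0) - grad0 ψ w * grad1 (pot1 w') w := fun w => by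
    have := pot_add w' w
    split_ifs at this ⊢ <;> linear_combination grad0 ψ w * this
  simp only [e, sum_sub_distrib, grad_orth, sum_ite_eq', mem_univ, if_true, sub_zero]

lemma pot1_symm (w w' : T.W) : grad1 (pot1 w') w = grad1 (pot1 w) w' := by
  rw [← pot1_id w (pot1 w'), ← pot1_id w' (pot1 w)]
  simp only [mul_comm]

lemma green1 (f : T.B1) (ψ : T.B1 → ℝ) : ∑ w, kInv T (Sum.inr f) w * grad1 ψ w = ψ f := by
  have h := congrFun (mulVec_mulVec (Sum.elim 0 ψ : T.B → ℝ) (kInv T) (kas (T := T))) (Sum.inr f)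
  rw [inv_mul_kas, one_mulVec, Sum.elim_inr] at h
  rw [← h]
  refine sum_congr rfl fun w _ => ?_
  rw [kas_mulVec]
  simp [grad0, ext, Sum.elim_comp_inl, Sum.elim_comp_inr]

/-- the Green function of the centres -/
def green (f g : T.B1) : ℝ := ∑ w, kInv T (Sum.inr f) w * kInv T (Sum.inr g) w

lemma grad1_sum (v : T.B1 → ℝ) (w : T.W) : grad1 v w = ∑ g, kas w (Sum.inr g) * v g := by
  simp only [kas, Sum.elim_inr, sinc, sub_mul, sum_sub_distrib, grad1, sum_ite_val]

lemma grad1_green (f : T.B1) (w : T.W) : grad1 (green f) w = kInv T (Sum.inr f) w := by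
  have h : grad1 (green f) w = ∑ x, kInv T (Sum.inr f) x * grad1 (pot1 x) w := by
    simp only [grad1_sum, green, pot1, mul_sum]
    rw [sum_comm]
    exact sum_congr rfl fun x _ => sum_congr rfl fun g _ => by ring
  simp only [h, pot1_symm w, green1, pot1]

lemma ext_restrict {s : Finset Pt} {Φ : Pt → ℝ} (h : ∀ p, p ∉ s → Φ p = 0) :
    ext (fun g : {p // p ∈ s} => Φ g.1) = Φ := by
  funext p
  by_cases hp : p ∈ s
  · exact ext_mem (fun g : {p // p ∈ s} => Φ g.1) ⟨p, hp⟩
  · rw [ext_not _ hp, h p hp]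

/-- the energy identity of the Green function -/
lemma green_dif (f : T.B1) {Φ : Pt → ℝ} (h : ∀ p, p ∉ T.S → Φ p = 0) :
    ∑ w ∈ mids T.S, dif (ext (green f)) eAcross w * dif Φ eAcross w = Φ f.1 := by
  rw [← sum_W (T := T) fun w => dif (ext (green f)) eAcross w * dif Φ eAcross w, ← green1 f fun g => Φ g.1]
  refine sum_congr rfl fun w _ => ?_
  rw [← grad1_eq, grad1_green, grad1_eq, ext_restrict h]

lemma dif_mem {Φ : Pt → ℝ} (h : ∀ p, p ∉ T.S → Φ p = 0) {q : Pt} (hq : dif Φ eAcross q ≠ 0) : q ∈ mids T.S := by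
  have hn : eAcross q ∈ nb4 ∧ -eAcross q ∈ nb4 := by unfold eAcross; split_ifs <;> simp [nb4]
  by_cases h1 : q + eAcross q ∈ T.S
  · simpa using side_mem h1 hn.2
  · by_cases h2 : q - eAcross q ∈ T.S
    · simpa using side_mem h2 hn.1
    · exact absurd (by rw [dif, h _ h1, h _ h2, sub_zero]) hq

lemma far_not_mem (p : Pt) (e : Pt) (he : e = (1, 0) ∨ e = (0, 1)) :
    ∃ L : ℕ, p + ((2 * L : ℤ) * e.1, (2 * L : ℤ) * e.2) ∉ T.S := by
  set K := T.S.sup fun q : Pt => q.1.natAbs + q.2.natAbs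
  refine ⟨K + p.1.natAbs + p.2.natAbs + 1, fun h => ?_⟩
  have := Finset.le_sup (f := fun q : Pt => q.1.natAbs + q.2.natAbs) h
  rcases he with rfl | rfl <;> simp only [Prod.fst_add, Prod.snd_add, mul_one, mul_zero, add_zero] at this <;> omega

lemma line_bound {Φ : Pt → ℝ} (h : ∀ p, p ∉ T.S → Φ p = 0) {p : Pt} (hp : p ∈ T.S) :
    |Φ p| ≤ ∑ w ∈ mids T.S, (if w.2 = p.2 then |dif Φ eAcross w| else 0) ∧
      |Φ p| ≤ ∑ w ∈ mids T.S, (if w.1 = p.1 then |dif Φ eAcross w| else 0) := by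
  obtain ⟨o1, o2⟩ := T.odd p hp
  constructor
  · obtain ⟨L, hL⟩ := far_not_mem (T := T) p (1, 0) (Or.inl rfl)
    have tel := sum_range_sub' (fun k : ℕ => Φ (p + (2 * (k : ℤ), 0))) L
    rw [show Φ (p + (2 * (L : ℤ), 0)) = 0 from h _ (by simpa using hL),
      show p + ((2 * ((0 : ℕ) : ℤ), 0) : Pt) = p by simp, sub_zero] at tel
    rw [← tel]
    refine (abs_sum_le_sum_abs _ _).trans ((le_of_eq (sum_congr rfl fun k _ => ?_)).trans
      (sum_inj_le (range L) (fun k : ℕ => p + (2 * (k : ℤ) + 1, 0)) (mids T.S)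
        (fun w => if w.2 = p.2 then |dif Φ eAcross w| else 0) (fun i _ j _ e => by
          simpa [Prod.ext_iff] using e) (fun w => by positivity) fun k _ hk => dif_mem h fun e => hk (by simp [e])))
    have ne : ¬Odd (p.1 + (2 * (k : ℤ) + 1)) := by rw [Int.odd_iff] at o1 ⊢; omega
    simp only [Prod.snd_add, add_zero, if_true, dif, eAcross, Prod.fst_add, if_neg ne]
    congr 2 <;> congr 1 <;> simp only [Prod.ext_iff, Prod.fst_add, Prod.snd_add, Prod.fst_sub, Prod.snd_sub, Nat.cast_add, Nat.cast_one] <;> constructor <;> ring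
  · obtain ⟨L, hL⟩ := far_not_mem (T := T) p (0, 1) (Or.inr rfl)
    have tel := sum_range_sub' (fun k : ℕ => Φ (p + (0, 2 * (k : ℤ)))) L
    rw [show Φ (p + (0, 2 * (L : ℤ))) = 0 from h _ (by simpa using hL),
      show p + ((0, 2 * ((0 : ℕ) : ℤ)) : Pt) = p by simp, sub_zero] at tel
    rw [← tel]
    refine (abs_sum_le_sum_abs _ _).trans ((le_of_eq (sum_congr rfl fun k _ => ?_)).trans
      (sum_inj_le (range L) (fun k : ℕ => p + (0, 2 * (k : ℤ) + 1)) (mids T.S)
        (fun w => if w.1 = p.1 then |dif Φ eAcross w| else 0) (fun i _ j _ e => by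
          simpa [Prod.ext_iff] using e) (fun w => by positivity) fun k _ hk => dif_mem h fun e => hk (by simp [e])))
    simp only [Prod.fst_add, add_zero, if_true, dif, eAcross, if_pos o1]
    rw [abs_sub_comm]
    congr 2 <;> congr 1 <;> simp only [Prod.ext_iff, Prod.fst_add, Prod.snd_add, Prod.fst_sub, Prod.snd_sub, Nat.cast_add, Nat.cast_one] <;> constructor <;> ring

/-- the lattice Sobolev inequality -/
lemma sobolev {Φ : Pt → ℝ} (h : ∀ p, p ∉ T.S → Φ p = 0) :
    ∑ p ∈ T.S, Φ p ^ 2 ≤ (∑ w ∈ mids T.S, |dif Φ eAcross w|) ^ 2 := by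
  set a := fun y : ℤ => ∑ w ∈ mids T.S, if w.2 = y then |dif Φ eAcross w| else 0
  set b := fun x : ℤ => ∑ w ∈ mids T.S, if w.1 = x then |dif Φ eAcross w| else 0
  have na : ∀ y, 0 ≤ a y := fun y => sum_nonneg fun w _ => by positivity
  have nb : ∀ x, 0 ≤ b x := fun x => sum_nonneg fun w _ => by positivity
  calc ∑ p ∈ T.S, Φ p ^ 2 ≤ ∑ p ∈ T.S, b p.1 * a p.2 := sum_le_sum fun p hp => by
        rw [← sq_abs, sq]; exact mul_le_mul (line_bound h hp).2 (line_bound h hp).1 (abs_nonneg _) (nb _)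
    _ ≤ ∑ p ∈ T.S.image Prod.fst ×ˢ T.S.image Prod.snd, b p.1 * a p.2 :=
        sum_le_sum_of_subset_of_nonneg (fun p hp => by
          simp only [mem_product, mem_image]; exact ⟨⟨p, hp, rfl⟩, p, hp, rfl⟩)
          fun p _ _ => mul_nonneg (nb _) (na _)
    _ = (∑ x ∈ T.S.image Prod.fst, b x) * ∑ y ∈ T.S.image Prod.snd, a y := by
        rw [sum_product, sum_mul_sum]
    _ ≤ _ := by
        rw [sq]
        refine mul_le_mul ?_ ?_ (sum_nonneg fun y _ => na y) (sum_nonneg fun w _ => abs_nonneg _) <;>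
        · simp only [a, b]
          rw [sum_comm]
          refine sum_le_sum fun w _ => ?_
          rw [sum_ite_eq]
          split_ifs <;> simp

/-- the energy -/
def energy (T : TGraph) (Φ : Pt → ℝ) : ℝ := ∑ w ∈ mids T.S, dif Φ eAcross w ^ 2

lemma moser {Φ : Pt → ℝ} (h : ∀ p, p ∉ T.S → Φ p = 0) :
    ∑ p ∈ T.S, Φ p ^ 6 ≤ 256 * (mids T.S).card * energy T Φ ^ 3 := by
  have hE : 0 ≤ energy T Φ := sum_nonneg fun w _ => sq_nonneg _
  have s2 : ∑ p ∈ T.S, Φ p ^ 2 ≤ (mids T.S).card * energy T Φ := by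
    refine (sobolev h).trans (sq_sum_le_card_mul_sum_sq.trans_eq ?_)
    simp only [sq_abs, energy]
  have step : ∀ n k : ℕ, n ≠ 0 → k ≠ 0 → ∀ Q : ℝ, (∀ a b : ℝ, |a ^ n - b ^ n| ≤ |a - b| * |Q * (a ^ k + b ^ k)|) →
      ∑ p ∈ T.S, (Φ p ^ n) ^ 2 ≤ energy T Φ * (8 * Q ^ 2 * ∑ p ∈ T.S, (Φ p ^ k) ^ 2) := by
    intro n k hn hk Q hQ
    refine (sobolev (Φ := fun p => Φ p ^ n) fun p hp => by simp [h p hp, hn]).trans ?_
    refine (pow_le_pow_left₀ (sum_nonneg fun w _ => abs_nonneg _) (sum_le_sum fun w _ => hQ _ _) 2).trans ?_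
    refine (sum_mul_sq_le_sq_mul_sq _ _ _).trans ?_
    rw [show ∑ w ∈ mids T.S, |Φ (w + eAcross w) - Φ (w - eAcross w)| ^ 2 = energy T Φ by
      simp [energy, dif, sq_abs]]
    refine mul_le_mul_of_nonneg_left ?_ hE
    calc ∑ w ∈ mids T.S, |Q * (Φ (w + eAcross w) ^ k + Φ (w - eAcross w) ^ k)| ^ 2
        ≤ ∑ w ∈ mids T.S, 2 * Q ^ 2 * ((Φ (w + eAcross w) ^ k) ^ 2 + (Φ (w - eAcross w) ^ k) ^ 2) :=
          sum_le_sum fun w _ => by
            rw [sq_abs, mul_pow, mul_assoc 2, mul_left_comm 2]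
            exact mul_le_mul_of_nonneg_left (by nlinarith [sq_nonneg (Φ (w + eAcross w) ^ k - Φ (w - eAcross w) ^ k)]) (sq_nonneg Q)
      _ ≤ _ := by
          rw [← mul_sum]
          have := sum_ends (T := T) (t := T.S) (fun p => (Φ p ^ k) ^ 2) (fun p => by positivity)
            (fun p hp => by simp [h p hp, hk]) eAcross eAcross_congr
          nlinarith [sq_nonneg Q]
  have s4 := step 2 1 two_ne_zero one_ne_zero 1 fun a b => by rw [← abs_mul]; exact le_of_eq (congrArg _ (by ring))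
  have s6 := step 3 2 (by norm_num) two_ne_zero 2 fun a b => by
    rw [abs_of_nonneg (by positivity : 0 ≤ 2 * (a ^ 2 + b ^ 2)), show a ^ 3 - b ^ 3 = (a - b) * (a ^ 2 + a * b + b ^ 2) by ring, abs_mul]
    refine mul_le_mul_of_nonneg_left ?_ (abs_nonneg _)
    rw [abs_of_nonneg (by nlinarith [sq_nonneg (a + b)])]
    nlinarith [sq_nonneg (a - b)]
  norm_num [← pow_mul] at s4 s6
  calc ∑ p ∈ T.S, Φ p ^ 6 ≤ energy T Φ * (32 * ∑ p ∈ T.S, Φ p ^ 4) := s6
    _ ≤ energy T Φ * (32 * (energy T Φ * (8 * ((mids T.S).card * energy T Φ)))) := by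
        gcongr; exact s4.trans (by gcongr)
    _ = _ := by ring

lemma min_mono_sq (a b k : ℝ) : (min a k - min b k) ^ 2 ≤ (a - b) * (min a k - min b k) := by
  rcases le_total a k with h | h <;> rcases le_total b k with h' | h' <;> simp [h, h'] <;> nlinarith

lemma green_min (f : T.B1) {k : ℝ} (hk : 0 ≤ k) :
    energy T (fun p => min (ext (green f) p) k) ≤ min (ext (green f) f.1) k := by
  rw [← green_dif f (Φ := fun p => min (ext (green f) p) k) fun p hp => by rw [ext_not _ hp]; exact min_eq_left hk]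
  exact sum_le_sum fun w _ => min_mono_sq _ _ _

lemma green_nonneg (f : T.B1) (p : Pt) : 0 ≤ ext (green f) p := by
  by_contra hp
  have he := green_min f (le_refl 0)
  have h0 : energy T (fun p => min (ext (green f) p) 0) = 0 :=
    le_antisymm (he.trans (min_le_right _ _)) (sum_nonneg fun w _ => sq_nonneg _)
  have hz : ∀ w : T.W, grad1 (fun g : T.B1 => min (ext (green f) g.1) 0) w = 0 := fun w => by
    rw [grad1_eq, ext_restrict (Φ := fun q => min (ext (green f) q) 0) fun p hp => by rw [ext_not _ hp, min_self]]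
    exact sq_eq_zero_iff.1 ((sum_eq_zero_iff_of_nonneg fun w _ => sq_nonneg _).1 h0 w.1 w.2)
  have hS : p ∈ T.S := by_contra fun hn => hp (by rw [ext_not _ hn])
  have := congrFun (grad1_inj hz) ⟨p, hS⟩
  simp only [Pi.zero_apply, min_eq_left (le_of_not_ge hp)] at this
  exact hp this.ge

lemma card_S_le : T.S.card ≤ (mids T.S).card := by
  have h := T.euler
  have : 0 < (corners T.S).card := card_pos.2 ⟨_, T.root_mem⟩
  omega

lemma sum_inv_sq (L : ℕ) : ∑ n ∈ range (L + 2), 1 / (n : ℝ) ^ 2 ≤ (2 : ℝ) - 1 / ((L : ℝ) + 1) := by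
  induction L with
  | zero => norm_num [sum_range_succ]
  | succ L ih =>
    rw [show L + 1 + 2 = L + 2 + 1 by ring, sum_range_succ]
    push_cast
    have : 1 / ((L : ℝ) + 2) ^ 2 ≤ 1 / (L + 1) - 1 / (L + 2) := by
      rw [div_sub_div _ _ (by positivity) (by positivity), div_le_div_iff₀ (by positivity) (by positivity)]
      nlinarith
    rw [show (L : ℝ) + 1 + 1 = L + 2 by ring]
    linarith

/-- the square sum of the Green function is of the order of the volume -/
lemma green_sq (f : T.B1) : ∑ p ∈ T.S, ext (green f) p ^ 2 ≤ 1537 * (mids T.S).card := by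
  set u := ext (green f)
  set M : ℝ := ((mids T.S).card : ℝ)
  obtain ⟨L, hL⟩ := exists_nat_gt (∑ p ∈ T.S, u p)
  have lev : ∀ n : ℕ, n ≠ 0 → (2 * (n : ℝ) + 1) * (T.S.filter fun p => (n : ℝ) ≤ u p).card ≤
      768 * M * (1 / (n : ℝ) ^ 2) := by
    intro n hn
    have hn1 : (1 : ℝ) ≤ n := by exact_mod_cast Nat.one_le_iff_ne_zero.2 hn
    have hE : energy T (fun p => min (u p) n) ≤ n := (green_min f (by positivity)).trans (min_le_right _ _)
    have h6 := (moser (Φ := fun p => min (u p) n) fun p hp => by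
      show min (u p) (n : ℝ) = 0
      rw [show u p = 0 from ext_not _ hp]; exact min_eq_left (by positivity)).trans
      (mul_le_mul_of_nonneg_left (pow_le_pow_left₀ (sum_nonneg fun w _ => sq_nonneg _) hE 3) (by positivity))
    have hc : ((T.S.filter fun p => (n : ℝ) ≤ u p).card : ℝ) * (n : ℝ) ^ 6 ≤ ∑ p ∈ T.S, min (u p) (n : ℝ) ^ 6 := by
      rw [← nsmul_eq_mul, ← sum_const, sum_filter]
      refine sum_le_sum fun p _ => ?_
      split_ifs with hp
      · rw [min_eq_right hp]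
      · positivity
    rw [mul_one_div, le_div_iff₀ (by positivity)]
    have key := hc.trans h6
    set c : ℝ := ((T.S.filter fun p => (n : ℝ) ≤ u p).card : ℝ)
    have k3 : c * (n : ℝ) ^ 3 ≤ 256 * M := le_of_mul_le_mul_right
      (by linarith [key, show c * (n : ℝ) ^ 3 * (n : ℝ) ^ 3 = c * (n : ℝ) ^ 6 by ring]) (by positivity : (0:ℝ) < (n : ℝ) ^ 3)
    calc (2 * (n : ℝ) + 1) * c * (n : ℝ) ^ 2 ≤ 3 * n * c * (n : ℝ) ^ 2 := by gcongr; linarith
      _ = 3 * (c * (n : ℝ) ^ 3) := by ring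
      _ ≤ _ := by linarith
  calc ∑ p ∈ T.S, u p ^ 2 ≤ ∑ p ∈ T.S, ∑ n ∈ range (L + 2), if (n : ℝ) ≤ u p then 2 * (n : ℝ) + 1 else 0 :=
        sum_le_sum fun p hp => by
          have h0 := green_nonneg f p
          set k := ⌊u p⌋₊ + 1
          have hk : k ≤ L + 2 := by
            have : u p ≤ L := (single_le_sum (fun q _ => green_nonneg f q) hp).trans hL.le
            have := (Nat.floor_le_floor this).trans_eq (Nat.floor_natCast L)
            omega
          refine le_trans ?_ (sum_le_sum_of_subset_of_nonneg (range_mono hk) fun n _ _ => by positivity)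
          rw [sum_congr rfl fun n hn => if_pos ((Nat.cast_le.2 (Nat.lt_succ_iff.1 (mem_range.1 hn))).trans (Nat.floor_le h0))]
          have : ∀ j : ℕ, ∑ n ∈ range j, (2 * (n : ℝ) + 1) = (j : ℝ) ^ 2 := fun j => by
            induction j with
            | zero => simp
            | succ j ih => rw [sum_range_succ, ih]; push_cast; ring
          rw [this]
          exact pow_le_pow_left₀ h0 (by simpa [k] using (Nat.lt_floor_add_one (u p)).le) 2
    _ = ∑ n ∈ range (L + 2), (2 * (n : ℝ) + 1) * (T.S.filter fun p => (n : ℝ) ≤ u p).card := by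
        rw [sum_comm]
        exact sum_congr rfl fun n _ => by rw [← sum_filter, sum_const, nsmul_eq_mul, mul_comm]
    _ ≤ ∑ n ∈ range (L + 2), ((if n = 0 then M else 0) + 768 * M * (1 / (n : ℝ) ^ 2)) :=
        sum_le_sum fun n _ => by
          rcases eq_or_ne n 0 with rfl | hn
          · simp only [Nat.cast_zero, mul_zero, zero_add, one_mul, if_true, ne_eq, OfNat.ofNat_ne_zero,
              not_false_eq_true, zero_pow, div_zero, add_zero]
            exact Nat.cast_le.2 ((card_filter_le _ _).trans card_S_le)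
          · rw [if_neg hn, zero_add]; exact lev n hn
    _ ≤ _ := by
        rw [sum_add_distrib, ← mul_sum, sum_ite_eq', if_pos (by simp)]
        have h2 : ∑ n ∈ range (L + 2), 1 / (n : ℝ) ^ 2 ≤ 2 :=
          (sum_inv_sq L).trans (sub_le_self _ (by positivity))
        have : 768 * M * ∑ n ∈ range (L + 2), 1 / (n : ℝ) ^ 2 ≤ 768 * M * 2 :=
          mul_le_mul_of_nonneg_left h2 (by positivity)
        linarith

lemma weight_edge (a b x y : ℝ) :
    (a ^ 2 + b ^ 2) * (x - y) ^ 2 ≤ 4 * ((x - y) * (a ^ 2 * x - b ^ 2 * y)) + 4 * ((a - b) ^ 2 * (x ^ 2 + y ^ 2)) := by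
  nlinarith [sq_nonneg (a * x - b * y), sq_nonneg (a * x - b * y - (a - b) * y), sq_nonneg (a * x - b * y + (a - b) * y),
    sq_nonneg (a * x - b * y - (a - b) * x), sq_nonneg (a * x - b * y + (a - b) * x)]

/-- the weighted square sum of one row -/
lemma row_bound (f : T.B1) :
    ∑ w : T.W, dst w.1 f.1 ^ 2 * kInv T (Sum.inr f) w ^ 2 ≤ 122960 * (mids T.S).card := by
  set u := ext (green f)
  set φ := fun p : Pt => dst p f.1
  have hz : ∀ p, p ∉ T.S → u p = 0 := fun p hp => ext_not _ hp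
  have hid := green_dif f (Φ := fun p => φ p ^ 2 * u p) fun p hp => by simp [hz p hp]
  simp only [φ, dst_self, ne_eq, OfNat.ofNat_ne_zero, not_false_eq_true, zero_pow, zero_mul] at hid
  have hs := sum_ends (T := T) (t := T.S) (fun p => u p ^ 2) (fun p => sq_nonneg _)
    (fun p hp => by simp [hz p hp]) eAcross eAcross_congr
  have hg := green_sq f
  calc ∑ w : T.W, dst w.1 f.1 ^ 2 * kInv T (Sum.inr f) w ^ 2
      = ∑ p ∈ mids T.S, φ p ^ 2 * dif u eAcross p ^ 2 := by
        rw [← sum_W (T := T) fun p => φ p ^ 2 * dif u eAcross p ^ 2]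
        exact sum_congr rfl fun w _ => by rw [← grad1_green, grad1_eq]
    _ ≤ ∑ p ∈ mids T.S, (4 * (dif u eAcross p * dif (fun q => φ q ^ 2 * u q) eAcross p) +
        20 * (u (p + eAcross p) ^ 2 + u (p - eAcross p) ^ 2)) := sum_le_sum fun p _ => by
        obtain ⟨e1, e2⟩ := dst_add_across p
        have l1 := dst_lip p (p + eAcross p) f.1
        have l2 := dst_lip p (p - eAcross p) f.1
        rw [dst_comm p (p + _), e1] at l1
        rw [dst_comm p (p - _), e2] at l2
        rw [abs_sub_le_iff] at l1 l2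
        have hw := weight_edge (φ (p + eAcross p)) (φ (p - eAcross p)) (u (p + eAcross p)) (u (p - eAcross p))
        have n0 := dst_nonneg p f.1
        simp only [dif, φ] at hw ⊢
        set x := u (p + eAcross p)
        set y := u (p - eAcross p)
        set a := dst (p + eAcross p) f.1
        set b := dst (p - eAcross p) f.1
        set d := dst p f.1
        have hd : d ^ 2 ≤ a ^ 2 + b ^ 2 + 2 := by
          nlinarith [sq_nonneg (a - 1), sq_nonneg (b - 1)]
        have hab : (a - b) ^ 2 ≤ 4 := by nlinarith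
        nlinarith [mul_le_mul_of_nonneg_right hd (sq_nonneg (x - y)), sq_nonneg (x + y),
          mul_le_mul_of_nonneg_right hab (add_nonneg (sq_nonneg x) (sq_nonneg y))]
    _ ≤ _ := by
        rw [sum_add_distrib, ← mul_sum, ← mul_sum, hid]
        linarith

lemma card_W : Fintype.card T.W = (mids T.S).card := Fintype.card_coe _

lemma pot1_total :
    ∑ w' : T.W, ∑ f : T.B1, dst w'.1 f.1 ^ 2 * pot1 w' f ^ 2 ≤ 122960 * ((mids T.S).card : ℝ) ^ 2 := by
  rw [sum_comm]
  refine (sum_le_sum fun f _ => row_bound f).trans ?_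
  rw [sum_const, card_univ, Fintype.card_coe, nsmul_eq_mul]
  have : (T.S.card : ℝ) ≤ (mids T.S).card := Nat.cast_le.2 card_S_le
  nlinarith [Nat.cast_nonneg (α := ℝ) (mids T.S).card]

/-- the fourth moment energy of a column -/
def mom4 (w' : T.W) : ℝ := ∑ w : T.W, dst w.1 w'.1 ^ 4 * grad1 (pot1 w') w ^ 2

lemma mom4_le (w' : T.W) :
    mom4 w' ≤ 24 + 4096 * ∑ f : T.B1, dst w'.1 f.1 ^ 2 * pot1 w' f ^ 2 := by
  set u := ext (pot1 w')
  set φ := fun p : Pt => dst p w'.1
  have hz : ∀ p, p ∉ T.S → u p = 0 := fun p hp => ext_not _ hp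
  have hE := pot1_id w' (pot1 w')
  have hE1 : ∑ w : T.W, grad1 (pot1 w') w ^ 2 ≤ 1 := by
    simp only [sq]
    rw [hE]
    have := single_le_sum (fun w _ => mul_self_nonneg (grad1 (pot1 w') w)) (mem_univ w')
    rw [hE] at this
    nlinarith
  have hv : |grad1 (pot1 w') w'| ≤ 1 :=
    abs_le_one_iff_mul_self_le_one.2 ((single_le_sum (fun w _ => mul_self_nonneg (grad1 (pot1 w') w)) (mem_univ w')).trans
      (by simpa [sq] using hE1))
  have hid := pot1_id w' fun g => (φ g.1 ^ 2) ^ 2 * pot1 w' g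
  have he : ext (fun g : T.B1 => (φ g.1 ^ 2) ^ 2 * pot1 w' g) = fun q => (φ q ^ 2) ^ 2 * u q := by
    rw [← ext_restrict (s := T.S) (Φ := fun q => (φ q ^ 2) ^ 2 * u q) fun p hp => by simp [hz p hp]]
    simp [u, ext_mem]
  have hloc : grad1 (fun g => (φ g.1 ^ 2) ^ 2 * pot1 w' g) w' = grad1 (pot1 w') w' := by
    rw [grad1_eq, grad1_eq, he]
    simp [dif, φ, (dst_add_across w'.1).1, (dst_add_across w'.1).2, u]
  have hs := sum_ends (T := T) (t := T.S) (fun p => φ p ^ 2 * u p ^ 2) (fun p => by positivity)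
    (fun p hp => by simp [hz p hp]) eAcross eAcross_congr
  have hS : ∑ f : T.B1, dst w'.1 f.1 ^ 2 * pot1 w' f ^ 2 = ∑ p ∈ T.S, φ p ^ 2 * u p ^ 2 := by
    rw [← sum_B1 (T := T) fun p => φ p ^ 2 * u p ^ 2]
    exact sum_congr rfl fun f _ => by simp [φ, u, ext_mem, dst_comm]
  have key : ∀ w : T.W, dst w.1 w'.1 ^ 4 * grad1 (pot1 w') w ^ 2 ≤
      16 * (grad1 (pot1 w') w * grad1 (fun g => (φ g.1 ^ 2) ^ 2 * pot1 w' g) w) +
      1024 * (φ (w.1 + eAcross w.1) ^ 2 * u (w.1 + eAcross w.1) ^ 2 +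
        φ (w.1 - eAcross w.1) ^ 2 * u (w.1 - eAcross w.1) ^ 2) + 8 * grad1 (pot1 w') w ^ 2 := fun w => by
    obtain ⟨e1, e2⟩ := dst_add_across w.1
    have l1 := dst_lip w.1 (w.1 + eAcross w.1) w'.1
    have l2 := dst_lip w.1 (w.1 - eAcross w.1) w'.1
    rw [dst_comm w.1 (w.1 + _), e1] at l1
    rw [dst_comm w.1 (w.1 - _), e2] at l2
    rw [abs_sub_le_iff] at l1 l2
    have one : ∀ q : Pt, u q ≠ 0 → 1 ≤ φ q := fun q hq => dst_one_le fun e => by
      have hS : q ∈ T.S := by_contra fun hn => hq (hz q hn)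
      obtain ⟨o1, o2⟩ := T.odd q hS
      rw [e] at o1 o2
      rcases mids_par w'.2 with ⟨-, a⟩ | ⟨a, -⟩
      · exact Int.not_odd_iff_even.2 a o2
      · exact Int.not_odd_iff_even.2 a o1
    have hx := one (w.1 + eAcross w.1)
    have hy := one (w.1 - eAcross w.1)
    simp only [grad1_eq, he, dif]
    simp only [φ] at hx hy ⊢
    set x := u (w.1 + eAcross w.1)
    set y := u (w.1 - eAcross w.1)
    set a := dst (w.1 + eAcross w.1) w'.1
    set b := dst (w.1 - eAcross w.1) w'.1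
    set d := dst w.1 w'.1
    have hw := weight_edge (a ^ 2) (b ^ 2) x y
    have na : 0 ≤ a := dst_nonneg _ _
    have nb : 0 ≤ b := dst_nonneg _ _
    have nd : 0 ≤ d := dst_nonneg _ _
    have four : ∀ t : ℝ, 0 ≤ t → d ≤ t + 1 → d ^ 4 ≤ 8 * (t ^ 2) ^ 2 + 8 := fun t ht h =>
      (pow_le_pow_left₀ nd h 4).trans (by nlinarith [sq_nonneg (t - 1), sq_nonneg (t ^ 2 - 1), sq_nonneg (t + 1)])
    have hd : d ^ 4 ≤ 4 * ((a ^ 2) ^ 2 + (b ^ 2) ^ 2) + 8 := by
      linarith [four a na (by linarith [l1.1]), four b nb (by linarith [l2.1])]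
    have hab : (a ^ 2 - b ^ 2) ^ 2 ≤ 4 * (a + b) ^ 2 := by
      rw [show (a ^ 2 - b ^ 2) ^ 2 = (a - b) ^ 2 * (a + b) ^ 2 by ring]
      exact mul_le_mul_of_nonneg_right (by nlinarith) (sq_nonneg _)
    have ax : (a + b) ^ 2 * x ^ 2 ≤ 16 * (a ^ 2 * x ^ 2) := by
      by_cases h0 : x = 0
      · simp [h0]
      · have := hx h0
        rw [← mul_assoc]; exact mul_le_mul_of_nonneg_right (by nlinarith) (sq_nonneg _)
    have ay : (a + b) ^ 2 * y ^ 2 ≤ 16 * (b ^ 2 * y ^ 2) := by
      by_cases h0 : y = 0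
      · simp [h0]
      · have := hy h0
        rw [← mul_assoc]; exact mul_le_mul_of_nonneg_right (by nlinarith) (sq_nonneg _)
    linarith [mul_le_mul_of_nonneg_right hd (sq_nonneg (x - y)),
      mul_le_mul_of_nonneg_right hab (add_nonneg (sq_nonneg x) (sq_nonneg y))]
  refine (sum_le_sum fun w _ => key w).trans ?_
  rw [sum_add_distrib, sum_add_distrib, ← mul_sum, ← mul_sum, ← mul_sum, hid, hloc, hS,
    sum_W (T := T) fun p => φ (p + eAcross p) ^ 2 * u (p + eAcross p) ^ 2 +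
        φ (p - eAcross p) ^ 2 * u (p - eAcross p) ^ 2]
  linarith [(abs_le.1 hv).2]

lemma mom4_total : ∑ w' : T.W, mom4 w' ≤ 503644184 * ((mids T.S).card : ℝ) ^ 2 := by
  refine (sum_le_sum fun w' _ => mom4_le w').trans ?_
  rw [sum_add_distrib, sum_const, card_univ, card_W, nsmul_eq_mul, ← mul_sum]
  have : ((mids T.S).card : ℝ) ≤ ((mids T.S).card : ℝ) ^ 2 := by exact_mod_cast Nat.le_self_pow two_ne_zero _
  linarith [pot1_total (T := T)]

end Vale.Agent.P155
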