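import Vale.Agent.P155.Tree

/-!
# P155: Kasteleyn's formulas for the count and the pair probabilities
-/

open Finset Matrix

noncomputable section

namespace Vale.Agent.P155

open scoped Classical

variable {T : TGraph} {σ : T.W ≃ T.B} (hσ : σ ∈ matchings T)

variable (T) in
/-- the Laplacian of the corners -/
def lap0 : Matrix T.B0 T.B0 ℝ := fun a a' => ∑ w : T.W, kas w (Sum.inl a) * kas w (Sum.inl a')

/-- the Kasteleyn matrix indexed by black vertices along a matching -/
def kasB (σ : T.W ≃ T.B) : Matrix T.B T.B ℝ := (kas (T := T)).submatrix σ.symm id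

lemma kasB_det_ne (σ : T.W ≃ T.B) : (kasB σ).det ≠ 0 := by
  have e : kasB σ = (kasSq T σ).submatrix σ.symm σ.symm := by
    ext b b'; simp [kasB, kasSq]
  rw [e, det_submatrix_equiv_self]
  exact (kasSq_isUnit σ).ne_zero

/-- the corner block -/
def blk0 (σ : T.W ≃ T.B) : Matrix T.B0 T.B0 ℝ := fun a a' => kas (σ.symm (Sum.inl a)) (Sum.inl a')

/-- the mixed block -/
def blk10 (σ : T.W ≃ T.B) : Matrix T.B1 T.B0 ℝ := fun f a => kas (σ.symm (Sum.inr f)) (Sum.inl a)

/-- the centre block -/
def blk1 (σ : T.W ≃ T.B) : Matrix T.B1 T.B1 ℝ := fun f f' => kas (σ.symm (Sum.inr f)) (Sum.inr f')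

/-- the block factorisation -/
lemma det_factor (σ : T.W ≃ T.B) :
    (kasB σ).det * (blk0 σ).det = (lap0 T).det * (blk1 σ).det := by
  set Q : Matrix T.B T.B ℝ := fromBlocks (blk0 σ) 0 (blk10 σ) 1 with hQdef
  have hQ : Q.det = (blk0 σ).det := by rw [hQdef, det_fromBlocks_zero₁₂, det_one, mul_one]
  have hP : (kasB σ)ᵀ * Q = fromBlocks (lap0 T) (blk10 σ)ᵀ 0 (blk1 σ)ᵀ := by
    have hQl : ∀ b a, Q b (Sum.inl a) = kas (σ.symm b) (Sum.inl a) := fun b a => by
      rcases b with b | b <;> simp [Q, blk0, blk10]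
    ext b b'
    rw [mul_apply]
    rcases b' with a' | f'
    · simp only [hQl, transpose_apply, kasB, submatrix_apply, id_eq]
      rw [Equiv.sum_comp σ.symm fun w => kas w b * kas w (Sum.inl a')]
      rcases b with a | f
      · simp [lap0]
      · rw [sum_congr rfl fun w _ => mul_comm _ _, kas_orth]
        simp
    · rcases b with a | f <;> simp [Q, Fintype.sum_sum_type, kasB, blk1, blk10, one_apply, transpose_apply]
  have := congrArg Matrix.det hP
  rwa [det_mul, det_transpose, hQ, det_fromBlocks_zero₂₁, det_transpose] at this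

include hσ in
lemma det_blk0 : (blk0 σ).det = ∏ a, blk0 σ a a := by
  refine det_parent _ (Par0 σ) (fun a a' h => ?_) (fun a b c h1 h2 => ?_) fun p hp => acyclic0 hσ p hp
  · rw [blk0, kas_parent hσ a a'] at h
    by_contra hc
    push Not at hc
    simp [hc.1, hc.2] at h
  · unfold Par0 at h1 h2
    exact Subtype.ext (add_left_cancel (h1.trans h2.symm))

include hσ in
lemma blk_diag_sq0 (a : T.B0) : blk0 σ a a * blk0 σ a a = 1 := kas_sq_edge (adj_symm hσ (Sum.inl a))

include hσ in
lemma blk_diag_sq1 (f : T.B1) : blk1 σ f f * blk1 σ f f = 1 := kas_sq_edge (adj_symm hσ (Sum.inr f))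

include hσ in
lemma blk1_ne : (blk1 σ).det ≠ 0 := by
  intro h
  have := det_factor σ
  rw [h, mul_zero] at this
  rcases mul_eq_zero.1 this with h' | h'
  · exact kasB_det_ne σ h'
  · rw [det_blk0 hσ, prod_eq_zero_iff] at h'
    obtain ⟨a, -, ha⟩ := h'
    have := blk_diag_sq0 hσ a
    simp [ha] at this

include hσ in
lemma kas_parent1 (f b : T.B1) : kas (σ.symm (Sum.inr f)) (Sum.inr b) =
    kas (σ.symm (Sum.inr f)) (Sum.inr f) * ((if b = f then 1 else 0) - if Par1 σ f b then 1 else 0) := by
  set w := σ.symm (Sum.inr f) with hw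
  have hA := (adj_centre w.2 f.2).1 (adj_symm hσ (Sum.inr f))
  have hne := eAcross_ne w.1
  simp only [kas, Sum.elim_inr, sinc, Par1, ← hw, ← Subtype.coe_inj]
  have e1 : f.1 = w.1 + eAcross w.1 → (f.1 + b.1 = w.1 + w.1 ↔ b.1 = w.1 - eAcross w.1) := fun h => by
    simp only [h, Prod.ext_iff, Prod.fst_add, Prod.snd_add, Prod.fst_sub, Prod.snd_sub]; omega
  have e2 : f.1 = w.1 - eAcross w.1 → (f.1 + b.1 = w.1 + w.1 ↔ b.1 = w.1 + eAcross w.1) := fun h => by
    simp only [h, Prod.ext_iff, Prod.fst_add, Prod.snd_add, Prod.fst_sub, Prod.snd_sub]; omega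
  rcases hA with h | h
  · simp only [e1 h]
    simp [h, hne]
  · simp only [e2 h]
    simp [h, Ne.symm hne]

include hσ in
lemma acyclic1 (p : Equiv.Perm T.B1) (hp : ∀ f, p f ≠ f → Par1 σ f (p f)) : p = 1 := by
  by_contra hne
  set C := univ.filter fun f => p f ≠ f
  obtain ⟨f₀, hf₀⟩ : ∃ f, p f ≠ f := by
    by_contra h; push Not at h; exact hne (Equiv.ext h)
  set v : T.B1 → ℝ := fun f => if p f ≠ f then blk1 σ f f else 0
  have hv : v ≠ 0 := fun h => by
    have := congrFun h f₀
    simp only [v, if_pos hf₀, Pi.zero_apply] at this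
    have := blk_diag_sq1 hσ f₀
    simp [*] at this
  refine blk1_ne hσ (exists_vecMul_eq_zero_iff.1 ⟨v, hv, funext fun b => ?_⟩)
  simp only [vecMul, dotProduct, Pi.zero_apply, v, ite_mul, zero_mul]
  rw [← sum_filter]
  have hrow : ∀ f ∈ C, blk1 σ f f * blk1 σ f b = (if b = f then 1 else 0) - if b = p f then (1:ℝ) else 0 := by
    intro f hf
    have hpar : Par1 σ f b ↔ b = p f := by
      have h := hp f (mem_filter.1 hf).2
      refine ⟨fun hb => Subtype.ext ?_, fun hb => hb ▸ h⟩
      unfold Par1 at h hb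
      rw [← h] at hb
      exact add_left_cancel hb
    show blk1 σ f f * kas (σ.symm (Sum.inr f)) (Sum.inr b) = _
    rw [kas_parent1 hσ f b, ← mul_assoc, show blk1 σ f f * kas (σ.symm (Sum.inr f)) (Sum.inr f) = 1 from
      blk_diag_sq1 hσ f, one_mul]
    simp only [hpar]
  rw [sum_congr rfl hrow, sum_sub_distrib, sum_ite_eq,
    sum_congr rfl fun f _ => show (if b = p f then (1:ℝ) else 0) = if p.symm b = f then 1 else 0 by
      simp only [Equiv.symm_apply_eq],
    sum_ite_eq]
  have : p.symm b ∈ C ↔ b ∈ C := by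
    simp only [C, mem_filter, mem_univ, true_and, ne_eq, Equiv.apply_symm_apply]
    rw [not_iff_not]
    exact ⟨fun h => by conv_lhs => rw [h]; rw [Equiv.apply_symm_apply], fun h => by rw [eq_comm, Equiv.symm_apply_eq, h]⟩
  simp only [this, sub_self]

include hσ in
lemma det_blk1 : (blk1 σ).det = ∏ f, blk1 σ f f := by
  refine det_parent _ (Par1 σ) (fun a a' h => ?_) (fun a b c h1 h2 => ?_) fun p hp => acyclic1 hσ p hp
  · rw [blk1, kas_parent1 hσ a a'] at h
    by_contra hc
    push Not at hc
    simp [hc.1, hc.2] at h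
  · unfold Par1 at h1 h2
    exact Subtype.ext (add_left_cancel (h1.trans h2.symm))

include hσ in
/-- all matchings contribute with one sign -/
lemma det_kasB : (kasB σ).det = (lap0 T).det * ∏ b : T.B, kasB σ b b := by
  have h := det_factor σ
  rw [det_blk0 hσ, det_blk1 hσ] at h
  have h0 : (∏ a, blk0 σ a a) * ∏ a, blk0 σ a a = 1 := by
    rw [← prod_mul_distrib]; exact prod_eq_one fun a _ => blk_diag_sq0 hσ a
  rw [Fintype.prod_sum_type, show ∏ a : T.B0, kasB σ (Sum.inl a) (Sum.inl a) = ∏ a, blk0 σ a a from rfl,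
    show ∏ f : T.B1, kasB σ (Sum.inr f) (Sum.inr f) = ∏ f, blk1 σ f f from rfl, mul_left_comm, ← mul_comm (∏ f, blk1 σ f f),
    ← mul_assoc]
  linear_combination (∏ a, blk0 σ a a) * h - (kasB σ).det * h0

variable (T) in
/-- the Kasteleyn matrix along the fixed identification -/
def kas0 : Matrix T.B T.B ℝ := kasB (someEquiv T)

/-- the permutation of a matching -/
def toPerm (σ : T.W ≃ T.B) : Equiv.Perm T.B := σ.symm.trans (someEquiv T)

/-- the matching of a permutation -/
def ofPerm (p : Equiv.Perm T.B) : T.W ≃ T.B := (someEquiv T).trans p.symm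

variable (T) in
/-- the common signed weight -/
def wgt : ℝ := (kas0 T).det / (lap0 T).det

lemma kasB_eq (σ : T.W ≃ T.B) : kasB σ = (kas0 T).submatrix (toPerm σ) id := by
  ext b b'; simp [kasB, kas0, toPerm]

include hσ in
lemma term_eq : ((Equiv.Perm.sign (toPerm σ) : ℤ) : ℝ) * ∏ b : T.B, kas (σ.symm b) b = wgt T := by
  have h := det_kasB hσ
  rw [kasB_eq, det_permute] at h
  have hl : (lap0 T).det ≠ 0 := fun e => kasB_det_ne σ (by rw [det_kasB hσ, e, zero_mul])
  have hs : ((Equiv.Perm.sign (toPerm σ) : ℤ) : ℝ) * ((Equiv.Perm.sign (toPerm σ) : ℤ) : ℝ) = 1 := by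
    rcases Int.units_eq_one_or (Equiv.Perm.sign (toPerm σ)) with e | e <;> simp [e]
  rw [wgt, eq_div_iff hl]
  simp only [submatrix_apply, id_eq] at h
  rw [show ∏ b, kas0 T (toPerm σ b) b = ∏ b, kas (σ.symm b) b from
    prod_congr rfl fun b _ => by simp [kas0, kasB, toPerm]] at h
  linear_combination (-((Equiv.Perm.sign (toPerm σ) : ℤ) : ℝ)) * h + (kas0 T).det * hs

/-- a determinant whose support lies in the edges counts matchings -/
lemma det_count (A : Matrix T.B T.B ℝ) (P : (T.W ≃ T.B) → Prop)
    (h1 : ∀ σ ∈ matchings T, P σ → ∀ b, A (toPerm σ b) b = kas (σ.symm b) b)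
    (h2 : ∀ σ ∈ matchings T, ¬P σ → ∃ b, A (toPerm σ b) b = 0)
    (h3 : ∀ b b', kas ((someEquiv T).symm b) b' = 0 → A b b' = 0) :
    A.det = wgt T * ((matchings T).filter P).card := by
  rw [det_apply', mul_comm, ← nsmul_eq_mul, ← sum_const]
  symm
  refine sum_bij_ne_zero (fun σ _ _ => toPerm σ) (fun _ _ _ => mem_univ _) ?_ ?_ ?_
  · intro σ _ _ τ _ _ h
    have := congrArg (fun e : Equiv.Perm T.B => e.trans (someEquiv T).symm) h
    simp [toPerm, Equiv.trans_assoc] at this
    exact Equiv.symm_bijective.injective this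
  · intro p _ hp
    have hm : ofPerm p ∈ matchings T := by
      refine mem_filter.2 ⟨mem_univ _, fun w => ?_⟩
      rw [← kas_ne_zero_iff]
      intro hz
      refine hp (mul_eq_zero_of_right _ (prod_eq_zero (mem_univ (ofPerm p w)) (h3 _ _ ?_)))
      simpa [ofPerm] using hz
    have he : toPerm (ofPerm p) = p := by ext b; simp [toPerm, ofPerm]
    have hP : P (ofPerm p) := by
      by_contra hn
      obtain ⟨b, hb⟩ := h2 _ hm hn
      exact hp (mul_eq_zero_of_right _ (prod_eq_zero (mem_univ b) (by rw [he] at hb; exact hb)))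
    refine ⟨ofPerm p, mem_filter.2 ⟨hm, hP⟩, ?_, he⟩
    intro hw
    refine kasB_det_ne (someEquiv T) ?_
    rcases div_eq_zero_iff.1 hw with h | h
    · exact h
    · exact absurd (by rw [det_kasB hm, h, zero_mul]) (kasB_det_ne (ofPerm p))
  · intro σ hσ' _
    obtain ⟨hm, hP⟩ := mem_filter.1 hσ'
    rw [← term_eq hm]
    congr 1
    exact prod_congr rfl fun b _ => (h1 σ hm hP b).symm

lemma kas0_det : (kas0 T).det = wgt T * (matchings T).card := by
  rw [det_count (kas0 T) (fun _ => True) (fun σ _ _ b => by simp [kas0, kasB, toPerm]) (fun _ _ h => absurd trivial h)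
    fun b b' h => by simpa [kas0, kasB] using h, filter_true]

lemma wgt_ne : wgt T ≠ 0 := fun h => kasB_det_ne (someEquiv T) (show (kas0 T).det = 0 by rw [kas0_det, h, zero_mul])

lemma matchings_pos : 0 < (matchings T).card := by
  by_contra h
  refine kasB_det_ne (someEquiv T) (show (kas0 T).det = 0 from ?_)
  rw [kas0_det, Nat.eq_zero_of_not_pos h, Nat.cast_zero, mul_zero]

lemma kas0_mul_inv : kas0 T * (kInv T).submatrix id (someEquiv T).symm = 1 := by
  ext b b'
  have := congrFun₂ (kas_mul_inv (T := T)) ((someEquiv T).symm b) ((someEquiv T).symm b')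
  simp only [mul_apply, kas0, kasB, submatrix_apply, id_eq, one_apply, EmbeddingLike.apply_eq_iff_eq] at this ⊢
  exact this

/-- rows replaced in the identity -/
lemma det_row_one {n : Type*} [Fintype n] [DecidableEq n] (r : n) (u : n → ℝ) :
    (updateRow (1 : Matrix n n ℝ) r u).det = u r := by
  have := det_updateRow_sum (1 : Matrix n n ℝ) r u
  simp only [det_one, smul_eq_mul, mul_one] at this
  convert this using 3
  funext k
  simp [Finset.sum_apply, Pi.smul_apply, one_apply]

lemma det_rows_two {n : Type*} [Fintype n] [DecidableEq n] {r r' : n} (h : r ≠ r') (u v : n → ℝ) :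
    (updateRow (updateRow (1 : Matrix n n ℝ) r u) r' v).det = u r * v r' - u r' * v r := by
  set e := fun i j : n => (1 : Matrix n n ℝ) i j
  set U : Matrix n (Fin 2) ℝ := Matrix.of fun i => ![e i r, e i r']
  set V : Matrix (Fin 2) n ℝ := Matrix.of ![fun j => u j - e r j, fun j => v j - e r' j]
  have hA : updateRow (updateRow (1 : Matrix n n ℝ) r u) r' v = 1 + U * V := by
    ext i j
    simp only [Matrix.add_apply, mul_apply, Fin.sum_univ_two, U, V, Matrix.of_apply, Matrix.cons_val_zero, Matrix.cons_val_one]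
    by_cases h1 : i = r'
    · subst h1
      rw [updateRow_self]
      simp [Ne.symm h, e]
    · rw [updateRow_ne h1]
      by_cases h2 : i = r
      · subst h2; rw [updateRow_self]; simp [h, e]
      · rw [updateRow_ne h2]; simp [e, h1, h2]
  rw [hA, det_one_add_mul_comm, det_fin_two]
  simp [U, V, e, Matrix.vecMul, dotProduct, Ne.symm h, h, Matrix.one_apply]

/-- the single row replaced -/
def oneEdge (w : T.W) (b : T.B) : T.B → ℝ := fun b' => if b' = b then kas w b else 0

lemma kInv_row (w : T.W) (b : T.B) :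
    oneEdge w b ᵥ* (kInv T).submatrix id (someEquiv T).symm =
      fun c => kas w b * kInv T b ((someEquiv T).symm c) := by
  funext c; simp [vecMul, dotProduct, oneEdge]

/-- the number of matchings through one edge -/
lemma card_edge (w : T.W) (b : T.B) :
    (((matchings T).filter fun σ => σ w = b).card : ℝ) =
      (matchings T).card * (kas w b * kInv T b w) := by
  set e₀ := someEquiv T
  have hd := det_count (updateRow (kas0 T) (e₀ w) (oneEdge w b)) (fun σ => σ w = b)
    (fun σ _ hP c => by
      by_cases hc : toPerm σ c = e₀ w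
      · have : σ.symm c = w := e₀.injective hc
        obtain rfl : c = b := by rw [← hP, ← this, Equiv.apply_symm_apply]
        rw [hc, updateRow_self]
        simp [oneEdge, this]
      · rw [updateRow_ne hc]; simp [kas0, kasB, toPerm])
    (fun σ _ hP => ⟨σ w, by
      rw [show toPerm σ (σ w) = e₀ w by simp [toPerm, e₀], updateRow_self]
      simp [oneEdge, hP]⟩)
    (fun c c' h => by
      by_cases hc : c = e₀ w
      · subst hc
        rw [updateRow_self]
        simp only [e₀, Equiv.symm_apply_apply] at h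
        by_cases hb : c' = b <;> simp [oneEdge, hb]
        rw [← hb, h]
      · rw [updateRow_ne hc]; simpa [kas0, kasB] using h)
  have hm := congrArg Matrix.det (updateRow_mul (kas0 T) (e₀ w) (oneEdge w b) ((kInv T).submatrix id e₀.symm))
  rw [det_mul, kas0_mul_inv, kInv_row, det_row_one, hd] at hm
  have hK := congrArg Matrix.det (kas0_mul_inv (T := T))
  rw [det_mul, det_one, kas0_det] at hK
  simp only [e₀, Equiv.symm_apply_apply] at hm
  have key : ∀ {M c D K : ℝ}, wgt T * c * D = K → wgt T * M * D = 1 → c = M * K := fun {M c D K} h1 h2 => by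
    linear_combination M * h1 - c * h2
  convert key hm hK

/-- the number of matchings through two edges -/
lemma card_pair {w w' : T.W} (hw : w ≠ w') (b b' : T.B) :
    (((matchings T).filter fun σ => σ w = b ∧ σ w' = b').card : ℝ) =
      (matchings T).card * (kas w b * kInv T b w * (kas w' b' * kInv T b' w') -
        kas w b * kInv T b w' * (kas w' b' * kInv T b' w)) := by
  set e₀ := someEquiv T
  have hne : e₀ w ≠ e₀ w' := fun h => hw (e₀.injective h)
  have hd := det_count (updateRow (updateRow (kas0 T) (e₀ w) (oneEdge w b)) (e₀ w') (oneEdge w' b'))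
    (fun σ => σ w = b ∧ σ w' = b')
    (fun σ _ hP c => by
      by_cases hc : toPerm σ c = e₀ w'
      · have : σ.symm c = w' := e₀.injective hc
        obtain rfl : c = b' := by rw [← hP.2, ← this, Equiv.apply_symm_apply]
        rw [hc, updateRow_self]
        simp [oneEdge, this]
      · rw [updateRow_ne hc]
        by_cases hc2 : toPerm σ c = e₀ w
        · have : σ.symm c = w := e₀.injective hc2
          obtain rfl : c = b := by rw [← hP.1, ← this, Equiv.apply_symm_apply]
          rw [hc2, updateRow_self]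
          simp [oneEdge, this]
        · rw [updateRow_ne hc2]; simp [kas0, kasB, toPerm])
    (fun σ _ hP => by
      rcases not_and_or.1 hP with h | h
      · refine ⟨σ w, ?_⟩
        rw [show toPerm σ (σ w) = e₀ w by simp [toPerm, e₀], updateRow_ne hne, updateRow_self]
        simp [oneEdge, h]
      · refine ⟨σ w', ?_⟩
        rw [show toPerm σ (σ w') = e₀ w' by simp [toPerm, e₀], updateRow_self]
        simp [oneEdge, h])
    (fun c c' h => by
      by_cases hc : c = e₀ w'
      · subst hc
        rw [updateRow_self]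
        simp only [e₀, Equiv.symm_apply_apply] at h
        by_cases hb : c' = b' <;> simp [oneEdge, hb]
        rw [← hb, h]
      · rw [updateRow_ne hc]
        by_cases hc2 : c = e₀ w
        · subst hc2
          rw [updateRow_self]
          simp only [e₀, Equiv.symm_apply_apply] at h
          by_cases hb : c' = b <;> simp [oneEdge, hb]
          rw [← hb, h]
        · rw [updateRow_ne hc2]; simpa [kas0, kasB] using h)
  have hm := congrArg Matrix.det (updateRow_mul (updateRow (kas0 T) (e₀ w) (oneEdge w b)) (e₀ w') (oneEdge w' b')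
    ((kInv T).submatrix id e₀.symm))
  rw [det_mul, updateRow_mul, kas0_mul_inv, kInv_row, kInv_row, det_rows_two hne, hd] at hm
  have hK := congrArg Matrix.det (kas0_mul_inv (T := T))
  rw [det_mul, det_one, kas0_det] at hK
  simp only [e₀, Equiv.symm_apply_apply] at hm
  have key : ∀ {M c D K : ℝ}, wgt T * c * D = K → wgt T * M * D = 1 → c = M * K := fun {M c D K} h1 h2 => by
    linear_combination M * h1 - c * h2
  convert key hm hK

end Vale.Agent.P155
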