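import Vale.Agent.P155.Defs

/-!
# P155: the Kasteleyn matrix

Corners carry the gradient along the sides, centres the gradient across the sides; the two ranges
are orthogonal and together fill the functions on the midpoints.
-/

open Finset Matrix

noncomputable section

namespace Vale.Agent.P155

open scoped Classical

variable {T : TGraph}

lemma mem_nb4 {d : Pt} : d ∈ nb4 ↔ d = (1, 0) ∨ d = (-1, 0) ∨ d = (0, 1) ∨ d = (0, -1) := by simp [nb4]

lemma mem_dg4 {d : Pt} : d ∈ dg4 ↔ d = (1, 1) ∨ d = (-1, 1) ∨ d = (1, -1) ∨ d = (-1, -1) := by simp [dg4]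

lemma mids_par {w : Pt} (hw : w ∈ mids T.S) : Odd w.1 ∧ Even w.2 ∨ Even w.1 ∧ Odd w.2 := by
  simp only [mids, mem_biUnion, mem_image] at hw
  obtain ⟨f, hf, d, hd, rfl⟩ := hw
  obtain ⟨h1, h2⟩ := T.odd f hf
  rcases mem_nb4.1 hd with rfl | rfl | rfl | rfl <;>
    simp only [Int.even_iff, Int.odd_iff, Prod.fst_add, Prod.snd_add] at h1 h2 ⊢ <;> omega

lemma corners_par {a : Pt} (ha : a ∈ corners T.S) : Even a.1 ∧ Even a.2 := by
  simp only [corners, mem_biUnion, mem_image] at ha
  obtain ⟨f, hf, d, hd, rfl⟩ := ha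
  obtain ⟨h1, h2⟩ := T.odd f hf
  rcases mem_dg4.1 hd with rfl | rfl | rfl | rfl <;>
    simp only [Int.even_iff, Int.odd_iff, Prod.fst_add, Prod.snd_add] at h1 h2 ⊢ <;> omega

lemma side_mem {f d : Pt} (hf : f ∈ T.S) (hd : d ∈ nb4) : f + d ∈ mids T.S :=
  mem_biUnion.2 ⟨f, hf, mem_image.2 ⟨d, hd, rfl⟩⟩

lemma corner_mem {f d : Pt} (hf : f ∈ T.S) (hd : d ∈ dg4) : f + d ∈ corners T.S :=
  mem_biUnion.2 ⟨f, hf, mem_image.2 ⟨d, hd, rfl⟩⟩

/-- the direction of the side through a midpoint -/
def eAlong (w : Pt) : Pt := if Odd w.1 then (1, 0) else (0, 1)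

/-- the direction across the side through a midpoint -/
def eAcross (w : Pt) : Pt := if Odd w.1 then (0, 1) else (-1, 0)

/-- signed incidence of a point with the two ends `w ± e` -/
def sinc (w e p : Pt) : ℝ := (if p = w + e then 1 else 0) - (if p = w - e then 1 else 0)

/-- the Kasteleyn matrix -/
def kas : Matrix T.W T.B ℝ :=
  fun w => Sum.elim (fun a => sinc w.1 (eAlong w.1) a.1) (fun f => sinc w.1 (eAcross w.1) f.1)

/-- extension by zero -/
def ext {s : Finset Pt} (u : {p // p ∈ s} → ℝ) (p : Pt) : ℝ := if h : p ∈ s then u ⟨p, h⟩ else 0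

lemma ext_mem {s : Finset Pt} (u : {p // p ∈ s} → ℝ) (p : {p // p ∈ s}) : ext u p.1 = u p := by simp [ext]

lemma ext_not {s : Finset Pt} (u : {p // p ∈ s} → ℝ) {p : Pt} (h : p ∉ s) : ext u p = 0 := dif_neg h

lemma sum_ite_val {s : Finset Pt} (u : {p // p ∈ s} → ℝ) (q : Pt) :
    ∑ a : {p // p ∈ s}, (if a.1 = q then 1 else 0) * u a = ext u q := by
  by_cases h : q ∈ s
  · rw [Finset.sum_eq_single ⟨q, h⟩ (fun b _ hb => by rw [if_neg fun e : b.1 = q => hb (Subtype.ext e), zero_mul]) (by simp)]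
    simp [ext, h]
  · rw [ext_not u h]
    exact sum_eq_zero fun a _ => by
      have : a.1 ≠ q := fun e => h (e ▸ a.2)
      simp [this]

/-- gradient of a function of the corners along the side of `w` -/
def grad0 (u : T.B0 → ℝ) (w : T.W) : ℝ := ext u (w.1 + eAlong w.1) - ext u (w.1 - eAlong w.1)

/-- gradient of a function of the centres across the side of `w` -/
def grad1 (v : T.B1 → ℝ) (w : T.W) : ℝ := ext v (w.1 + eAcross w.1) - ext v (w.1 - eAcross w.1)

lemma kas_mulVec (x : T.B → ℝ) (w : T.W) :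
    (kas *ᵥ x) w = grad0 (x ∘ Sum.inl) w + grad1 (x ∘ Sum.inr) w := by
  simp only [mulVec, dotProduct, Fintype.sum_sum_type, kas, Sum.elim_inl, Sum.elim_inr, sinc, sub_mul,
    sum_sub_distrib, grad0, grad1, Function.comp_def, sum_ite_val (fun a => x (Sum.inl a)),
    sum_ite_val (fun a => x (Sum.inr a))]

/-- the two gradients are orthogonal -/
lemma kas_orth (a : T.B0) (f : T.B1) : ∑ w : T.W, kas w (Sum.inl a) * kas w (Sum.inr f) = 0 := by
  simp only [kas, Sum.elim_inl, Sum.elim_inr]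
  by_cases hd : a.1 - f.1 ∈ dg4
  · obtain ⟨d, hd, he⟩ : ∃ d ∈ dg4, a.1 = f.1 + d := ⟨_, hd, by abel⟩
    obtain ⟨hf1, hf2⟩ := T.odd f.1 f.2
    have hd' := mem_dg4.1 hd
    have n1 : ((d.1, 0) : Pt) ∈ nb4 := by rcases hd' with rfl | rfl | rfl | rfl <;> simp [nb4]
    have n2 : ((0, d.2) : Pt) ∈ nb4 := by rcases hd' with rfl | rfl | rfl | rfl <;> simp [nb4]
    set w₁ : T.W := ⟨f.1 + (d.1, 0), side_mem f.2 n1⟩
    set w₂ : T.W := ⟨f.1 + (0, d.2), side_mem f.2 n2⟩
    have hne : w₁ ≠ w₂ := fun e => by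
      have := congrArg Subtype.val e
      simp only [w₁, w₂, Prod.ext_iff, Prod.fst_add, Prod.snd_add] at this
      rcases hd' with rfl | rfl | rfl | rfl <;> simp at this
    have o1 : ¬Odd w₁.1.1 := by
      rw [Int.odd_iff] at hf1
      simp only [w₁, Prod.fst_add, Int.odd_iff]
      rcases hd' with rfl | rfl | rfl | rfl <;> simp only <;> omega
    have o2 : Odd w₂.1.1 := by simpa [w₂] using hf1
    rw [sum_eq_add w₁ w₂ hne (fun w _ hw => ?_) (by simp) (by simp)]
    · simp only [eAlong, eAcross, if_neg o1, if_pos o2, sinc, he, w₁, w₂]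
      rcases hd' with rfl | rfl | rfl | rfl <;> simp [Prod.ext_iff] <;> split_ifs <;> first | omega | norm_num
    · by_contra h
      obtain ⟨h1, h2⟩ := mul_ne_zero_iff.1 h
      have h1' : a.1 = w.1 + eAlong w.1 ∨ a.1 = w.1 - eAlong w.1 := by
        by_contra c; push Not at c; simp [sinc, c.1, c.2] at h1
      have h2' : f.1 = w.1 + eAcross w.1 ∨ f.1 = w.1 - eAcross w.1 := by
        by_contra c; push Not at c; simp [sinc, c.1, c.2] at h2
      have e1 : w.1 ≠ w₁.1 := fun e => hw.1 (Subtype.ext e)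
      have e2 : w.1 ≠ w₂.1 := fun e => hw.2 (Subtype.ext e)
      simp only [w₁, w₂, Prod.ext_iff, Prod.fst_add, Prod.snd_add, ne_eq, not_and_or] at e1 e2
      simp only [eAlong, eAcross, Prod.ext_iff] at h1' h2'
      simp only [Prod.ext_iff, Prod.fst_add, Prod.snd_add] at he
      rcases mem_dg4.1 hd with rfl | rfl | rfl | rfl <;> by_cases ho : Odd w.1.1 <;>
        simp only [ho, if_true, if_false, Prod.fst_add, Prod.snd_add, Prod.fst_sub, Prod.snd_sub] at h1' h2' e1 e2 he <;> omega
  · refine sum_eq_zero fun w _ => ?_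
    by_contra h
    obtain ⟨h1, h2⟩ := mul_ne_zero_iff.1 h
    refine hd (mem_dg4.2 ?_)
    simp only [sinc] at h1 h2
    simp only [eAlong, eAcross, Prod.ext_iff] at *
    by_cases ho : Odd w.1.1 <;> simp only [ho, if_true, if_false] at h1 h2 <;>
      split_ifs at h1 h2 <;> simp_all [Prod.ext_iff] <;> omega

lemma grad_orth (u : T.B0 → ℝ) (v : T.B1 → ℝ) : ∑ w : T.W, grad0 u w * grad1 v w = 0 := by
  have e0 : ∀ w, grad0 u w = ∑ a, kas w (Sum.inl a) * u a := fun w => by
    simp only [kas, Sum.elim_inl, sinc, sub_mul, sum_sub_distrib, grad0, sum_ite_val]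
  have e1 : ∀ w, grad1 v w = ∑ f, kas w (Sum.inr f) * v f := fun w => by
    simp only [kas, Sum.elim_inr, sinc, sub_mul, sum_sub_distrib, grad1, sum_ite_val]
  simp only [e0, e1, sum_mul_sum]
  rw [sum_comm]
  refine sum_eq_zero fun a _ => ?_
  rw [sum_comm]
  refine sum_eq_zero fun f _ => ?_
  rw [sum_congr rfl fun w _ => show kas w (Sum.inl a) * u a * (kas w (Sum.inr f) * v f) =
    kas w (Sum.inl a) * kas w (Sum.inr f) * (u a * v f) by ring, ← sum_mul, kas_orth, zero_mul]

lemma step_ends {a a' : Pt} (ha : a ∈ corners T.S) {w : Pt} (hw : w ∈ mids T.S) (h : Adj w a)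
    (he : a + a' = w + w) :
    a = w + eAlong w ∧ a' = w - eAlong w ∨ a = w - eAlong w ∧ a' = w + eAlong w := by
  obtain ⟨p1, p2⟩ := corners_par ha
  have he1 := congrArg Prod.fst he
  have he2 := congrArg Prod.snd he
  simp only [Prod.fst_add, Prod.snd_add] at he1 he2
  rw [Int.even_iff] at p1 p2
  rw [Adj, abs_eq_max_neg, abs_eq_max_neg] at h
  rcases mids_par hw with ⟨q1, q2⟩ | ⟨q1, q2⟩
  · rw [Int.even_iff] at q2
    simp only [eAlong, if_pos q1, Prod.ext_iff, Prod.fst_add, Prod.snd_add, Prod.fst_sub, Prod.snd_sub]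
    rw [Int.odd_iff] at q1
    omega
  · simp only [eAlong, if_neg (Int.not_odd_iff_even.2 q1), Prod.ext_iff, Prod.fst_add, Prod.snd_add,
      Prod.fst_sub, Prod.snd_sub]
    rw [Int.even_iff] at q1; rw [Int.odd_iff] at q2
    omega

lemma grad0_inj {u : T.B0 → ℝ} (h : ∀ w, grad0 u w = 0) : u = 0 := by
  funext a
  have key : ∀ p ∈ corners T.S, Relation.ReflTransGen (Step T.S) p T.root → ext u p = 0 := by
    intro p hp hr
    induction hr using Relation.ReflTransGen.head_induction_on with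
    | refl => exact ext_not u (by simp)
    | @head b c hbc _ ih =>
      obtain ⟨w, hw, hA, he⟩ := hbc
      have hg := h ⟨w, hw⟩
      simp only [grad0, sub_eq_zero] at hg
      have hc : c ∈ corners T.S := by
        simp only [mids, mem_biUnion, mem_image] at hw
        obtain ⟨f, hf, d, hd, rfl⟩ := hw
        have hcd : c - f ∈ dg4 := by
          obtain ⟨o1, o2⟩ := T.odd f hf
          obtain ⟨p1, p2⟩ := corners_par hp
          rw [Int.odd_iff] at o1 o2
          rw [Int.even_iff] at p1 p2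
          have he1 := congrArg Prod.fst he
          have he2 := congrArg Prod.snd he
          simp only [Prod.fst_add, Prod.snd_add] at he1 he2
          rw [mem_dg4]
          rw [Adj, abs_eq_max_neg, abs_eq_max_neg] at hA
          simp only [Prod.fst_add, Prod.snd_add] at hA
          simp only [Prod.ext_iff, Prod.fst_sub, Prod.snd_sub]
          rcases mem_nb4.1 hd with rfl | rfl | rfl | rfl <;> simp only at he1 he2 hA <;> omega
        simpa using corner_mem hf hcd
      have hih := ih hc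
      rcases step_ends hp hw hA he with ⟨rfl, rfl⟩ | ⟨rfl, rfl⟩
      · rw [hg, hih]
      · rw [← hg, hih]
  have hc := Finset.mem_of_mem_erase a.2
  rw [Pi.zero_apply, ← ext_mem u a]
  exact key a.1 hc (T.conn a.1 hc)

lemma grad1_inj {v : T.B1 → ℝ} (h : ∀ w, grad1 v w = 0) : v = 0 := by
  by_contra hv
  obtain ⟨f0, hf0⟩ := Function.ne_iff.1 hv
  obtain ⟨f, hf, hmax⟩ := (univ.filter fun f : T.B1 => v f ≠ 0).exists_max_image (fun f => f.1.1)
    ⟨f0, by simpa using hf0⟩
  simp only [mem_filter, mem_univ, true_and] at hf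
  have hw : f.1 + (1, 0) ∈ mids T.S := side_mem f.2 (by simp [nb4])
  have ho : ¬Odd (f.1 + (1, 0)).1 := by
    by_contra hc
    obtain ⟨o, -⟩ := T.odd _ f.2
    simp only [Int.odd_iff, Prod.fst_add] at o hc
    omega
  have := h ⟨_, hw⟩
  simp only [grad1, eAcross, if_neg ho] at this
  rw [show f.1 + (1, 0) + (-1, 0) = f.1 by simp [Prod.ext_iff], ext_mem] at this
  have hz : ext v (f.1 + (1, 0) - (-1, 0)) = 0 := by
    by_cases hm : f.1 + (1, 0) - (-1, 0) ∈ T.S
    · by_contra hn
      rw [ext, dif_pos hm] at hn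
      have := hmax ⟨_, hm⟩ (by simpa using hn)
      simp at this
    · exact ext_not v hm
  rw [hz, sub_zero] at this
  exact hf this

lemma kas_inj : Function.Injective (kas (T := T)).mulVec := by
  intro x y hxy
  have hz : ∀ w, grad0 ((x - y) ∘ Sum.inl) w + grad1 ((x - y) ∘ Sum.inr) w = 0 := fun w => by
    rw [← kas_mulVec, mulVec_sub, hxy, sub_self, Pi.zero_apply]
  set u := (x - y) ∘ Sum.inl
  set v := (x - y) ∘ Sum.inr
  have h2 : ∑ w, (grad0 u w + grad1 v w) ^ 2 = ∑ w, grad0 u w ^ 2 + ∑ w, grad1 v w ^ 2 := by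
    have : ∀ w, (grad0 u w + grad1 v w) ^ 2 = grad0 u w ^ 2 + grad1 v w ^ 2 + 2 * (grad0 u w * grad1 v w) :=
      fun w => by ring
    simp only [this, sum_add_distrib, ← mul_sum, grad_orth, mul_zero, add_zero]
  simp only [hz, ne_eq, OfNat.ofNat_ne_zero, not_false_eq_true, zero_pow, sum_const_zero] at h2
  have n0 := sum_nonneg fun w (_ : w ∈ (univ : Finset T.W)) => sq_nonneg (grad0 u w)
  have n1 := sum_nonneg fun w (_ : w ∈ (univ : Finset T.W)) => sq_nonneg (grad1 v w)
  have g0 : ∀ w, grad0 u w = 0 := fun w => by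
    have := (sum_eq_zero_iff_of_nonneg fun w _ => sq_nonneg (grad0 u w)).1 (by linarith) w (mem_univ w)
    simpa using this
  have g1 : ∀ w, grad1 v w = 0 := fun w => by
    have := (sum_eq_zero_iff_of_nonneg fun w _ => sq_nonneg (grad1 v w)).1 (by linarith) w (mem_univ w)
    simpa using this
  funext b
  rcases b with a | f
  · exact sub_eq_zero.1 (congrFun (grad0_inj g0) a)
  · exact sub_eq_zero.1 (congrFun (grad1_inj g1) f)

lemma card_B : Fintype.card T.B = Fintype.card T.W := by
  have := T.euler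
  have := card_erase_add_one T.root_mem
  simp only [Fintype.card_sum, Fintype.card_coe]
  omega

variable (T) in
/-- an identification of the two colours -/
def someEquiv : T.W ≃ T.B := Fintype.equivOfCardEq card_B.symm

variable (T) in
/-- the Kasteleyn matrix, square along an identification -/
def kasSq (σ : T.W ≃ T.B) : Matrix T.W T.W ℝ := (kas (T := T)).submatrix id σ

lemma kasSq_isUnit (σ : T.W ≃ T.B) : IsUnit (kasSq T σ).det := by
  rw [← isUnit_iff_isUnit_det, ← mulVec_injective_iff_isUnit]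
  intro x y hxy
  simp only [kasSq, submatrix_mulVec_equiv, Function.comp_id] at hxy
  exact σ.symm.surjective.injective_comp_right (kas_inj hxy)

variable (T) in
/-- the inverse Kasteleyn matrix -/
def kInv : Matrix T.B T.W ℝ := fun b w => (kasSq T (someEquiv T))⁻¹ ((someEquiv T).symm b) w

lemma kas_mul_inv : (kas (T := T)) * kInv T = 1 := by
  ext w w'
  rw [mul_apply, ← (someEquiv T).sum_comp fun b => kas w b * kInv T b w']
  simp only [kInv, Equiv.symm_apply_apply]
  have := congrFun₂ (mul_nonsing_inv (kasSq T (someEquiv T)) (kasSq_isUnit _)) w w'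
  simpa [mul_apply, kasSq] using this

end Vale.Agent.P155
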