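import Vale.Agent.P155.Moments

/-!
# P155: the second moment of the circulations of a test form in an interior square
-/

open Finset Matrix

noncomputable section

namespace Vale.Agent.P155

open scoped Classical

variable {T : TGraph}

lemma sum_loop_eq (σ τ : T.W ≃ T.B) (w : T.W) :
    ∑ v ∈ loopAt σ τ w, xpos σ v = ∑ v ∈ loopAt σ τ w, xpos τ v := by
  refine Finset.sum_equiv (nxt σ τ) (fun v => ?_) fun v _ => ?_
  · simp only [mem_loopAt, Equiv.Perm.sameCycle_apply_right]
  · rw [xpos, xpos, tau_nxt]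

lemma cov_zero_right (X Y : (T.W ≃ T.B) → ℝ) (h : ∀ σ ∈ matchings T, Y σ = 0) : cov X Y = 0 := by
  have h1 : ∀ σ ∈ matchings T, X σ * Y σ = 0 := fun σ hσ => by rw [h σ hσ, mul_zero]
  simp only [cov, avg, sum_eq_zero h1, sum_eq_zero h, zero_div, mul_zero, sub_zero]

lemma dst_succ_le {p c : Pt} {n : ℕ} (h : dst p c < n) : dst p c + 1 ≤ n := by
  rw [dst_eq_cast] at h ⊢
  exact_mod_cast Int.add_one_le_iff.2 (by exact_mod_cast h)

/-- the wider cutoff -/
def chi (c : Pt) (M : ℕ) (p : Pt) : ℝ := ramp (4 * M) (2 * M) (dst p c)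

/-- the horizontal displacement to a black vertex -/
def disp (w : T.W) (b : T.B) : ℝ := ((bpos b).1 : ℝ) - w.1.1

/-- the error of moving the cutoff to the black vertices -/
def err (c : Pt) (M : ℕ) (w : T.W) (b : T.B) : ℝ :=
  (((bpos b).1 : ℝ) - c.1) * (chi c M (bpos b) - chi c M w.1)

variable {c : Pt} {M : ℕ}

lemma disp_le {w : T.W} {b : T.B} (h : Adj w.1 (bpos b)) : |disp w b| ≤ 1 :=
  (le_max_left _ |((bpos b).2 : ℝ) - w.1.2|).trans (dst_adj h)

variable (hM : 2 ≤ M)

variable {F : Pt → ℝ} {L : ℝ} (hz : ∀ p, 2 * (M : ℝ) ≤ dst p c → F p = 0)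
  (hl : ∀ p q, |F p - F q| ≤ L * dst p q)

include hM hz in
lemma chi_test (p : Pt) : chi c M p * F p = F p := by
  have hr : (2 : ℝ) ≤ M := by exact_mod_cast hM
  by_cases h : 2 * (M : ℝ) ≤ dst p c
  · rw [hz p h, mul_zero]
  · rw [chi, ramp_eq_one (by linarith) (by linarith), one_mul]

variable (T) in
/-- the summand of the bound -/
def pairW (c : Pt) (M : ℕ) (w v : T.W) : ℝ :=
  if w ∈ wins T c M ∧ v ∈ wins T c M then dst w.1 v.1 ^ 2 * (nearSq w v + nearSq v w) else 0

lemma pairW_nonneg (w v : T.W) : 0 ≤ pairW T c M w v := by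
  unfold pairW
  split_ifs
  · exact mul_nonneg (sq_nonneg _) (add_nonneg (nearSq_nonneg _ _) (nearSq_nonneg _ _))
  · exact le_rfl

lemma pairW_sum : ∑ w : T.W, ∑ v : T.W, pairW T c M w v = 2 * jsum T c M := by
  have e : ∀ w v : T.W, pairW T c M w v = if w ∈ wins T c M then
      (if v ∈ wins T c M then dst w.1 v.1 ^ 2 * nearSq w v + dst v.1 w.1 ^ 2 * nearSq v w else 0) else 0 := fun w v => by
    rw [pairW, ite_and, dst_comm v.1 w.1, mul_add]
  simp only [e, sum_ite_irrel, sum_const_zero, sum_ite_mem_eq, sum_add_distrib, jsum, two_mul]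
  congr 1
  exact sum_comm

include hM hz hl in
lemma first_term (w v : T.W) :
    |F w.1 ^ 2 * cov (fun σ => disp w (σ w)) (fun σ => err c M v (σ v))| ≤ 18 * L ^ 2 * pairW T c M w v := by
  have hr : (2 : ℝ) ≤ M := by exact_mod_cast hM
  have n0 : 0 ≤ L ^ 2 * pairW T c M w v := mul_nonneg (sq_nonneg L) (pairW_nonneg w v)
  by_cases hF : F w.1 = 0
  · rw [hF]; simp; linarith
  by_cases he : ∀ b, Adj v.1 (bpos b) → err c M v b = 0
  · rw [cov_zero_right _ _ fun σ hσ => he _ ((mem_filter.1 hσ).2 v)]; simp; linarith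
  push Not at he
  obtain ⟨b, hb, hne⟩ := he
  have hw2 : dst w.1 c < 2 * M := lt_of_not_ge fun h => hF (hz _ h)
  have hb1 := dst_adj hb
  have hdiff : chi c M (bpos b) ≠ chi c M v.1 := fun h => hne (by rw [err, h, sub_self, mul_zero])
  have hlo : 2 * (M : ℝ) ≤ dst v.1 c := by
    by_contra h
    have := dst_succ_le (n := 2 * M) (by push_cast; linarith : dst v.1 c < ((2 * M : ℕ) : ℝ))
    push_cast at this
    refine hdiff ?_
    rw [chi, chi, ramp_eq_one (by linarith) (by linarith [dst_triangle (bpos b) v.1 c]),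
      ramp_eq_one (by linarith) (by linarith)]
  have hhi : dst v.1 c ≤ 4 * M + 1 := by
    by_contra h
    refine hdiff ?_
    rw [chi, chi, ramp_eq_zero (by linarith) (by linarith [dst_triangle v.1 (bpos b) c, dst_comm v.1 (bpos b)]),
      ramp_eq_zero (by linarith) (by linarith)]
  have hwv : w ≠ v := fun e => by subst e; linarith
  have hmem : w ∈ wins T c M ∧ v ∈ wins T c M := by
    simp only [wins, mem_filter, mem_univ, true_and]
    exact ⟨dst_le_cast.1 (by push_cast; linarith), dst_le_cast.1 (by push_cast; linarith)⟩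
  have hcov := cov_bound hwv (disp w) (err c M v) (L := 1) (L' := 3) (fun b hb => disp_le hb) fun b' hb' => by
    have h1 := dst_adj hb'
    have hx : |((bpos b').1 : ℝ) - c.1| ≤ 4 * M + 2 :=
      (le_max_left _ |((bpos b').2 : ℝ) - c.2|).trans
        (show dst (bpos b') c ≤ _ by linarith [dst_triangle (bpos b') v.1 c])
    have hc := ramp_lip (A := 4 * (M : ℝ)) (show (0 : ℝ) < 2 * M by linarith) ((dst_lip (bpos b') v.1 c).trans h1)
    rw [err, abs_mul]
    refine (mul_le_mul hx hc (abs_nonneg _) (by linarith)).trans ?_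
    rw [mul_one_div, div_le_iff₀ (by linarith)]
    linarith
  have hFv : F v.1 = 0 := hz _ hlo
  have hl' := hl w.1 v.1
  rw [hFv, sub_zero] at hl'
  rw [abs_mul, abs_of_nonneg (sq_nonneg _), pairW, if_pos hmem]
  have hsq : F w.1 ^ 2 ≤ L ^ 2 * dst w.1 v.1 ^ 2 := by
    rw [← sq_abs]; exact (pow_le_pow_left₀ (abs_nonneg _) hl' 2).trans_eq (by ring)
  refine (mul_le_mul hsq hcov (abs_nonneg _) (by positivity)).trans ?_
  have := mul_nonneg (mul_nonneg (sq_nonneg L) (sq_nonneg (dst w.1 v.1))) (nearSq_nonneg w v)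
  linarith

include hM hl in
lemma second_term (w v : T.W) :
    |chi c M w.1 * chi c M v.1 * (F w.1 - F v.1) ^ 2 *
      cov (fun σ => disp w (σ w)) (fun σ => disp v (σ v))| ≤ 2 * L ^ 2 * pairW T c M w v := by
  have hr : (2 : ℝ) ≤ M := by exact_mod_cast hM
  have n0 : 0 ≤ L ^ 2 * pairW T c M w v := mul_nonneg (sq_nonneg L) (pairW_nonneg w v)
  by_cases hwv : w = v
  · subst hwv; simp; linarith
  by_cases hmem : w ∈ wins T c M ∧ v ∈ wins T c M
  · have hcov := cov_bound hwv (disp w) (disp v) (L := 1) (L' := 1) (fun b hb => disp_le hb) fun b hb => disp_le hb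
    have hl := pow_le_pow_left₀ (abs_nonneg _) (hl w.1 v.1) 2
    rw [sq_abs] at hl
    rw [pairW, if_pos hmem, abs_mul, abs_of_nonneg (by
      exact mul_nonneg (mul_nonneg (ramp_nonneg _ _ _) (ramp_nonneg _ _ _)) (sq_nonneg _))]
    have h1 : chi c M w.1 * chi c M v.1 * (F w.1 - F v.1) ^ 2 ≤ L ^ 2 * dst w.1 v.1 ^ 2 := by
      refine (mul_le_of_le_one_left (sq_nonneg _) (mul_le_one₀ (ramp_le_one _ _ _) (ramp_nonneg _ _ _) (ramp_le_one _ _ _))).trans
        (hl.trans_eq (by ring))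
    refine (mul_le_mul h1 hcov (abs_nonneg _) (by positivity)).trans_eq ?_
    ring
  · have hz : chi c M w.1 * chi c M v.1 = 0 := by
      simp only [wins, mem_filter, mem_univ, true_and, not_and_or, ← dst_le_cast] at hmem
      push_cast at hmem
      rcases hmem with h | h
      · rw [chi, ramp_eq_zero (by linarith) (by linarith), zero_mul]
      · rw [mul_comm, chi, ramp_eq_zero (by linarith) (by linarith), zero_mul]
    rw [hz]
    simp; linarith

include hM hz hl in
lemma var_bound :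
    cov (fun σ => ∑ w : T.W, F w.1 * disp w (σ w)) (fun σ => ∑ w : T.W, F w.1 * disp w (σ w)) ≤
      38 * L ^ 2 * jsum T c M := by
  set K := fun w v : T.W => cov (fun σ => disp w (σ w)) (fun σ => disp v (σ v))
  set G := fun w : T.W => F w.1
  set χ := fun w : T.W => chi c M w.1
  have hexp : cov (fun σ => ∑ w, G w * disp w (σ w)) (fun σ => ∑ w, G w * disp w (σ w)) =
      ∑ w, ∑ v, G w * G v * K w v := by
    rw [cov_sum, sum_comm]
    refine sum_congr rfl fun v _ => ?_
    rw [cov_smul, cov_comm, cov_sum, mul_sum]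
    refine sum_congr rfl fun w _ => ?_
    rw [cov_smul]
    simp only [K, G, cov_comm (fun σ => disp v (σ v))]
    ring
  have hK : ∀ w v, K w v = K v w := fun w v => cov_comm _ _
  have hsym : ∑ w, ∑ v, χ w * (G v ^ 2 * K w v) = ∑ w, ∑ v, χ v * (G w ^ 2 * K w v) := by
    rw [sum_comm]
    exact sum_congr rfl fun w _ => sum_congr rfl fun v _ => by rw [hK]
  have hpt : ∀ w v, G w * G v * K w v = (1 / 2) * (χ v * (G w ^ 2 * K w v)) + (1 / 2) * (χ w * (G v ^ 2 * K w v)) -
      (1 / 2) * (χ w * χ v * (G w - G v) ^ 2 * K w v) := fun w v => by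
    have a : χ w * G w = G w := chi_test (c := c) (M := M) hM hz _
    have b : χ v * G v = G v := chi_test (c := c) (M := M) hM hz _
    linear_combination (-(G v * K w v) + 1 / 2 * χ v * G w * K w v) * a +
      (-(χ w * G w * K w v) + 1 / 2 * χ w * G v * K w v) * b
  have hgauge : ∀ w, ∑ v, χ v * (G w ^ 2 * K w v) =
      -∑ v, G w ^ 2 * cov (fun σ => disp w (σ w)) (fun σ => err c M v (σ v)) := fun w => by
    set k : ℝ := ∑ b : T.B, (((bpos b).1 : ℝ) - c.1) * chi c M (bpos b) - ∑ v : T.W, χ v * ((v.1.1 : ℝ) - c.1)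
    have he : (fun σ : T.W ≃ T.B => ∑ v, χ v * disp v (σ v)) = fun σ => k - ∑ v, err c M v (σ v) := by
      funext σ
      simp only [k]
      rw [← σ.sum_comp fun b => (((bpos b).1 : ℝ) - c.1) * chi c M (bpos b), ← sum_sub_distrib, ← sum_sub_distrib]
      exact sum_congr rfl fun v _ => by simp only [err, disp, χ]; ring
    have hc : ∑ v, χ v * K w v = -∑ v, cov (fun σ => disp w (σ w)) (fun σ => err c M v (σ v)) := by
      simp only [K, ← cov_smul]
      rw [← cov_sum, he, cov_const_sub, cov_sum]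
    rw [← mul_sum, ← mul_neg, ← hc, mul_sum]
    exact sum_congr rfl fun v _ => by ring
  rw [hexp]
  have out : ∀ f : T.W → T.W → ℝ, ∑ w, ∑ v, (1 / 2) * f w v = (1 / 2) * ∑ w, ∑ v, f w v := fun f => by
    simp only [← mul_sum]
  simp only [hpt, sum_sub_distrib, sum_add_distrib]
  rw [out fun w v => χ v * (G w ^ 2 * K w v), out fun w v => χ w * (G v ^ 2 * K w v),
    out fun w v => χ w * χ v * (G w - G v) ^ 2 * K w v, hsym, sum_congr rfl fun w _ => hgauge w, sum_neg_distrib]
  have h1 := (abs_sum_le_sum_abs _ _).trans (sum_le_sum fun w (_ : w ∈ (univ : Finset T.W)) =>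
    (abs_sum_le_sum_abs _ _).trans (sum_le_sum fun v (_ : v ∈ (univ : Finset T.W)) => first_term (c := c) (M := M) (L := L) hM hz hl w v))
  have h2 := (abs_sum_le_sum_abs _ _).trans (sum_le_sum fun w (_ : w ∈ (univ : Finset T.W)) =>
    (abs_sum_le_sum_abs _ _).trans (sum_le_sum fun v (_ : v ∈ (univ : Finset T.W)) => second_term (c := c) (M := M) (L := L) hM hl w v))
  rw [show ∑ w : T.W, ∑ v : T.W, 18 * L ^ 2 * pairW T c M w v = 18 * L ^ 2 * (2 * jsum T c M) by
    simp only [← mul_sum, pairW_sum]] at h1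
  rw [show ∑ w : T.W, ∑ v : T.W, 2 * L ^ 2 * pairW T c M w v = 2 * L ^ 2 * (2 * jsum T c M) by
    simp only [← mul_sum, pairW_sum]] at h2
  simp only [G, χ, K] at *
  linarith [(abs_le.1 h1).1, (abs_le.1 h2).1]

/-- the second moment of the circulations of a test form in a safe square -/
lemma core (hs : Safe T c M) (hz : ∀ p, 2 * (M : ℝ) ≤ dst p c → F p = 0) (hl : ∀ p q, |F p - F q| ≤ L * dst p q) :
    ∑ σ ∈ matchings T, ∑ τ ∈ matchings T, ∑ O ∈ loops σ τ, circ σ τ F O ^ 2 ≤
      1216 * cKey * L ^ 2 * ((mids T.S).card : ℝ) ^ 2 * ((matchings T).card : ℝ) ^ 2 := by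
  obtain ⟨-, -, hM, -⟩ := id hs
  calc _ = ∑ σ ∈ matchings T, ∑ τ ∈ matchings T, (∑ w : T.W, F w.1 * disp w (σ w) -
        ∑ w : T.W, F w.1 * disp w (τ w)) ^ 2 := by
          refine (loops_sq fun w => F w.1).trans ?_
          refine sum_congr rfl fun σ _ => sum_congr rfl fun τ _ => ?_
          rw [← sum_sub_distrib]
          exact congrArg (· ^ 2) (sum_congr rfl fun w _ => by simp only [xpos, disp]; ring)
    _ = _ := two_var fun σ => ∑ w : T.W, F w.1 * disp w (σ w)
    _ ≤ 2 * ((matchings T).card : ℝ) ^ 2 * (38 * L ^ 2 * (16 * (cKey * ((mids T.S).card : ℝ) ^ 2))) :=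
      mul_le_mul_of_nonneg_left ((var_bound hM hz hl).trans (mul_le_mul_of_nonneg_left (jsum_le hs) (by positivity))) (by positivity)
    _ = _ := by ring

lemma card_mids_le {K : ℕ} (h : ∀ f ∈ T.S, InBox c (K * M) f) (hM : 1 ≤ M) :
    ((mids T.S).card : ℝ) ≤ ((2 * (K : ℝ) + 3) * M) ^ 2 := by
  set n : ℤ := (K : ℤ) * M + 1
  have hsub : mids T.S ⊆ Finset.Icc (c.1 - n) (c.1 + n) ×ˢ Finset.Icc (c.2 - n) (c.2 + n) := fun w hw => by
    simp only [mids, mem_biUnion, mem_image] at hw
    obtain ⟨f, hf, d, hd, rfl⟩ := hw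
    have := h f hf
    rw [InBox, abs_le, abs_le] at this
    push_cast at this
    simp only [mem_product, Finset.mem_Icc, Prod.fst_add, Prod.snd_add, n]
    rcases mem_nb4.1 hd with rfl | rfl | rfl | rfl <;> simp only <;> omega
  have hc := card_le_card hsub
  rw [card_product, Int.card_Icc, Int.card_Icc] at hc
  have e : ∀ x : ℤ, (x + n + 1 - (x - n)).toNat = 2 * (K * M) + 3 := fun x => by
    rw [show x + n + 1 - (x - n) = ((2 * (K * M) + 3 : ℕ) : ℤ) by simp [n]; ring, Int.toNat_natCast]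
  rw [e, e] at hc
  have hc' : ((mids T.S).card : ℝ) ≤ ((2 * (K * M) + 3 : ℕ) : ℝ) * ((2 * (K * M) + 3 : ℕ) : ℝ) := by
    exact_mod_cast hc
  refine hc'.trans ?_
  rw [sq]
  have : (1 : ℝ) ≤ M := by exact_mod_cast hM
  push_cast
  refine mul_le_mul ?_ ?_ (by positivity) (by positivity) <;> nlinarith

end Vale.Agent.P155
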