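import Vale.Agent.P155.Conj

/-!
# P155: loops and covariances of edge functions

Swapping the two matchings along one loop shows that the squares of the loop sums add up, in the
mean, to twice a variance; covariances factor through the inverse Kasteleyn matrix.
-/

open Finset Matrix

noncomputable section

namespace Vale.Agent.P155

open scoped Classical

variable {T : TGraph}

section cycles

variable {σ τ : T.W ≃ T.B} {w : T.W}

lemma mem_loopAt {v : T.W} : v ∈ loopAt σ τ w ↔ (nxt σ τ).SameCycle w v := by simp [loopAt]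

lemma loopAt_eq {v : T.W} (h : v ∈ loopAt σ τ w) : loopAt σ τ v = loopAt σ τ w := by
  rw [mem_loopAt] at h
  ext x
  simp only [mem_loopAt]
  exact ⟨fun hx => h.trans hx, fun hx => h.symm.trans hx⟩

lemma self_mem_loopAt : w ∈ loopAt σ τ w := mem_loopAt.2 (Equiv.Perm.SameCycle.refl _ _)

lemma tau_nxt (v : T.W) : τ (nxt σ τ v) = σ v := by simp [nxt]

/-- swap the matchings along the loop of `w` -/
def swapPair (w : T.W) (p : (T.W ≃ T.B) × (T.W ≃ T.B)) : (T.W ≃ T.B) × (T.W ≃ T.B) :=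
  ((((nxt p.1 p.2).cycleOf w).symm).trans p.1, ((nxt p.1 p.2).cycleOf w).trans p.2)

lemma cycle_symm_apply (π : Equiv.Perm T.W) (v : T.W) :
    (π.cycleOf w).symm v = if π.SameCycle w v then π.symm v else v := by
  rw [Equiv.symm_apply_eq, Equiv.Perm.cycleOf_apply]
  by_cases h : π.SameCycle w v
  · rw [if_pos h, if_pos]
    · simp
    · have h' : π.SameCycle (π.symm v) v := ⟨1, by simp⟩
      exact h.trans h'.symm
  · simp [h]

lemma swap_fst (v : T.W) : (swapPair w (σ, τ)).1 v = if v ∈ loopAt σ τ w then τ v else σ v := by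
  simp only [swapPair, Equiv.trans_apply, cycle_symm_apply, mem_loopAt]
  by_cases h : (nxt σ τ).SameCycle w v
  · simp only [if_pos h]
    rw [← tau_nxt (σ := σ) (τ := τ), Equiv.apply_symm_apply]
  · simp [h]

lemma swap_snd (v : T.W) : (swapPair w (σ, τ)).2 v = if v ∈ loopAt σ τ w then σ v else τ v := by
  simp only [swapPair, Equiv.trans_apply, Equiv.Perm.cycleOf_apply, mem_loopAt]
  by_cases h : (nxt σ τ).SameCycle w v
  · simp only [if_pos h, tau_nxt]
  · simp [h]

lemma swap_loop : loopAt (swapPair w (σ, τ)).1 (swapPair w (σ, τ)).2 w = loopAt σ τ w := by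
  set π := nxt σ τ
  set π' := nxt (swapPair w (σ, τ)).1 (swapPair w (σ, τ)).2
  have step : ∀ v, π.SameCycle w v → π' v = π⁻¹ v := fun v hv => by
    apply (swapPair w (σ, τ)).2.injective
    have hm : π⁻¹ v ∈ loopAt σ τ w := mem_loopAt.2 (hv.trans (⟨-1, by simp [π]⟩ : π.SameCycle v (π⁻¹ v)))
    rw [tau_nxt, swap_fst, swap_snd, if_pos (mem_loopAt.2 hv), if_pos hm, ← tau_nxt (σ := σ) (τ := τ) (π⁻¹ v),
      show nxt σ τ (π⁻¹ v) = v from π.apply_symm_apply v]
  have pw : ∀ n : ℕ, (π' ^ n) w = (π⁻¹ ^ n) w ∧ π.SameCycle w ((π⁻¹ ^ n) w) := fun n => by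
    induction n with
    | zero => exact ⟨rfl, Equiv.Perm.SameCycle.refl _ _⟩
    | succ n ih =>
      rw [pow_succ', pow_succ', Equiv.Perm.mul_apply, Equiv.Perm.mul_apply, ih.1, step _ ih.2]
      exact ⟨rfl, ih.2.trans ⟨-1, by simp⟩⟩
  ext v
  simp only [mem_loopAt]
  constructor
  · intro h
    obtain ⟨n, rfl⟩ := h.exists_nat_pow_eq
    rw [(pw n).1]; exact (pw n).2
  · intro h
    obtain ⟨n, rfl⟩ := (Equiv.Perm.sameCycle_inv.2 h).exists_nat_pow_eq
    exact ⟨(n : ℤ), by rw [zpow_natCast]; exact (pw n).1⟩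

lemma swap_swap (p : (T.W ≃ T.B) × (T.W ≃ T.B)) : swapPair w (swapPair w p) = p := by
  obtain ⟨σ, τ⟩ := p
  refine Prod.ext (Equiv.ext fun v => ?_) (Equiv.ext fun v => ?_)
  · rw [show swapPair w (σ, τ) = ((swapPair w (σ, τ)).1, (swapPair w (σ, τ)).2) from rfl, swap_fst, swap_loop,
      swap_snd, swap_fst]
    split_ifs <;> rfl
  · rw [show swapPair w (σ, τ) = ((swapPair w (σ, τ)).1, (swapPair w (σ, τ)).2) from rfl, swap_snd, swap_loop,
      swap_snd, swap_fst]
    split_ifs <;> rfl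

lemma swap_mem (hσ : σ ∈ matchings T) (hτ : τ ∈ matchings T) :
    swapPair w (σ, τ) ∈ matchings T ×ˢ matchings T := by
  rw [mem_product]
  refine ⟨mem_filter.2 ⟨mem_univ _, fun v => ?_⟩, mem_filter.2 ⟨mem_univ _, fun v => ?_⟩⟩
  · rw [swap_fst]; split_ifs
    · exact (mem_filter.1 hτ).2 v
    · exact (mem_filter.1 hσ).2 v
  · rw [swap_snd]; split_ifs
    · exact (mem_filter.1 hσ).2 v
    · exact (mem_filter.1 hτ).2 v

end cycles

/-- horizontal position of the partner -/
def xpos (σ : T.W ≃ T.B) (w : T.W) : ℝ := ((bpos (σ w)).1 : ℝ)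

lemma cross_zero (F : T.W → ℝ) (w v : T.W) :
    ∑ σ ∈ matchings T, ∑ τ ∈ matchings T,
      (if v ∈ loopAt σ τ w then 0 else F w * (xpos σ w - xpos τ w) * (F v * (xpos σ v - xpos τ v))) = 0 := by
  rw [← sum_product (matchings T) (matchings T) fun p => if v ∈ loopAt p.1 p.2 w then 0 else
    F w * (xpos p.1 w - xpos p.2 w) * (F v * (xpos p.1 v - xpos p.2 v))]
  refine sum_involution (fun p _ => swapPair w p) (fun p _ => ?_) (fun p _ hne => ?_)
    (fun p hp => swap_mem (mem_product.1 hp).1 (mem_product.1 hp).2) fun p _ => swap_swap p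
  · obtain ⟨σ, τ⟩ := p
    simp only [swap_loop]
    split_ifs with h
    · simp
    · simp only [xpos, swap_fst, swap_snd, if_pos (self_mem_loopAt (σ := σ) (τ := τ)), if_neg h]
      ring
  · obtain ⟨σ, τ⟩ := p
    intro e
    have h1 := congrArg (fun q : (T.W ≃ T.B) × (T.W ≃ T.B) => q.1 w) e
    simp only [swap_fst, if_pos (self_mem_loopAt (σ := σ) (τ := τ))] at h1
    simp [xpos, h1] at hne

/-- squares of the loop sums add up to the square of the whole sum, in the mean -/
lemma loops_sq (F : T.W → ℝ) :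
    ∑ σ ∈ matchings T, ∑ τ ∈ matchings T, ∑ O ∈ loops σ τ, (∑ w ∈ O, F w * (xpos σ w - xpos τ w)) ^ 2 =
      ∑ σ ∈ matchings T, ∑ τ ∈ matchings T, (∑ w, F w * (xpos σ w - xpos τ w)) ^ 2 := by
  have e : ∀ σ τ : T.W ≃ T.B, (∑ w, F w * (xpos σ w - xpos τ w)) ^ 2 -
      ∑ O ∈ loops σ τ, (∑ w ∈ O, F w * (xpos σ w - xpos τ w)) ^ 2 =
      ∑ w, ∑ v, if v ∈ loopAt σ τ w then 0 else F w * (xpos σ w - xpos τ w) * (F v * (xpos σ v - xpos τ v)) := by
    intro σ τ
    set g := fun w => F w * (xpos σ w - xpos τ w)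
    have h : ∑ O ∈ loops σ τ, (∑ w ∈ O, g w) ^ 2 = ∑ w, g w * ∑ v ∈ loopAt σ τ w, g v := by
      rw [← sum_fiberwise_of_maps_to (t := loops σ τ) (g := loopAt σ τ) (fun w _ => mem_image_of_mem _ (mem_univ w))]
      refine sum_congr rfl fun O hO => ?_
      obtain ⟨w₀, -, rfl⟩ := mem_image.1 hO
      have hs : univ.filter (fun w => loopAt σ τ w = loopAt σ τ w₀) = loopAt σ τ w₀ := by
        ext x
        simp only [mem_filter, mem_univ, true_and]
        exact ⟨fun hx => hx ▸ self_mem_loopAt, loopAt_eq⟩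
      rw [hs, sq, sum_mul]
      exact sum_congr rfl fun x hx => by rw [loopAt_eq hx]
    rw [h, sq, sum_mul_sum, ← sum_sub_distrib]
    refine sum_congr rfl fun w _ => ?_
    rw [mul_sum, ← sum_ite_mem_eq (loopAt σ τ w) (fun v => g w * g v), ← sum_sub_distrib]
    exact sum_congr rfl fun v _ => by split_ifs <;> (try simp only [g]) <;> ring
  symm
  rw [← sub_eq_zero, ← sum_sub_distrib]
  simp only [← sum_sub_distrib, e]
  rw [sum_congr rfl fun σ _ => sum_comm, sum_comm]
  refine sum_eq_zero fun w _ => ?_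
  rw [sum_congr rfl fun σ _ => sum_comm, sum_comm]
  exact sum_eq_zero fun v _ => cross_zero F w v

/-- expectation for a uniform matching -/
def avg (X : (T.W ≃ T.B) → ℝ) : ℝ := (∑ σ ∈ matchings T, X σ) / (matchings T).card

/-- covariance for a uniform matching -/
def cov (X Y : (T.W ≃ T.B) → ℝ) : ℝ := avg (fun σ => X σ * Y σ) - avg X * avg Y

lemma card_ne : ((matchings T).card : ℝ) ≠ 0 := Nat.cast_ne_zero.2 matchings_pos.ne'

lemma cov_comm (X Y : (T.W ≃ T.B) → ℝ) : cov X Y = cov Y X := by simp only [cov, mul_comm]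

lemma cov_sum {ι : Type*} (s : Finset ι) (X : (T.W ≃ T.B) → ℝ) (Y : ι → (T.W ≃ T.B) → ℝ) :
    cov X (fun σ => ∑ i ∈ s, Y i σ) = ∑ i ∈ s, cov X (Y i) := by
  simp only [cov, avg, mul_sum, sum_sub_distrib]
  rw [sum_comm (s := matchings T), sum_comm (s := matchings T)]
  simp only [sum_div, mul_sum]

lemma cov_smul (a : ℝ) (X Y : (T.W ≃ T.B) → ℝ) : cov X (fun σ => a * Y σ) = a * cov X Y := by
  simp only [cov, avg, mul_left_comm _ a, ← mul_sum, mul_div_assoc]
  ring

lemma cov_const_sub (a : ℝ) (X Y : (T.W ≃ T.B) → ℝ) : cov X (fun σ => a - Y σ) = -cov X Y := by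
  simp only [cov, avg, mul_sub, sum_sub_distrib, ← sum_mul, sum_const, nsmul_eq_mul]
  field_simp [card_ne (T := T)]
  ring

lemma two_var (X : (T.W ≃ T.B) → ℝ) :
    ∑ σ ∈ matchings T, ∑ τ ∈ matchings T, (X σ - X τ) ^ 2 = 2 * ((matchings T).card : ℝ) ^ 2 * cov X X := by
  simp only [sub_sq, sum_add_distrib, sum_sub_distrib, sum_const, nsmul_eq_mul, mul_assoc, ← mul_sum,
    ← sum_mul, cov, avg]
  field_simp [card_ne (T := T)]
  simp only [sq]
  ring

lemma avg_single (w : T.W) (g : T.B → ℝ) :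
    avg (fun σ => g (σ w)) = ∑ b, g b * (kas w b * kInv T b w) := by
  rw [avg, div_eq_iff card_ne, sum_mul, ← sum_fiberwise (matchings T) (fun σ => σ w) fun σ => g (σ w)]
  refine sum_congr rfl fun b _ => ?_
  rw [sum_congr rfl fun σ hσ => show g (σ w) = g b by rw [(mem_filter.1 hσ).2], sum_const, nsmul_eq_mul, card_edge]
  ring

/-- the covariance of functions of two edges factors -/
lemma cov_pair {w w' : T.W} (hw : w ≠ w') (g h : T.B → ℝ) :
    cov (fun σ => g (σ w)) (fun σ => h (σ w')) =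
      -((∑ b, g b * kas w b * kInv T b w') * ∑ b, h b * kas w' b * kInv T b w) := by
  have hp : avg (fun σ => g (σ w) * h (σ w')) = ∑ b, ∑ b', g b * h b' *
      (kas w b * kInv T b w * (kas w' b' * kInv T b' w') - kas w b * kInv T b w' * (kas w' b' * kInv T b' w)) := by
    rw [avg, div_eq_iff card_ne, ← sum_fiberwise (matchings T) (fun σ => σ w) fun σ => g (σ w) * h (σ w'), sum_mul]
    refine sum_congr rfl fun b _ => ?_
    rw [← sum_fiberwise ((matchings T).filter fun σ => σ w = b) (fun σ => σ w') fun σ => g (σ w) * h (σ w'), sum_mul]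
    refine sum_congr rfl fun b' _ => ?_
    rw [filter_filter, sum_congr rfl fun σ hσ => show g (σ w) * h (σ w') = g b * h b' by
      obtain ⟨-, h1, h2⟩ := mem_filter.1 hσ; rw [h1, h2], sum_const, nsmul_eq_mul, card_pair hw]
    ring
  rw [cov, hp, avg_single, avg_single, sum_mul_sum, sum_mul_sum, ← sum_sub_distrib, ← sum_neg_distrib]
  refine sum_congr rfl fun b _ => ?_
  rw [← sum_sub_distrib, ← sum_neg_distrib]
  exact sum_congr rfl fun b' _ => by ring

/-- squared inverse entries next to a white vertex -/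
def nearSq (w w' : T.W) : ℝ := ∑ b : T.B, if Adj w.1 (bpos b) then kInv T b w' ^ 2 else 0

lemma nearSq_nonneg (w w' : T.W) : 0 ≤ nearSq w w' := sum_nonneg fun b _ => by positivity

lemma bpos_inj : Function.Injective (bpos : T.B → Pt) := by
  have key : ∀ (a : T.B0) (f : T.B1), a.1 ≠ f.1 := fun a f e => by
    obtain ⟨p, -⟩ := corners_par (mem_of_mem_erase a.2)
    obtain ⟨q, -⟩ := T.odd f.1 f.2
    rw [e] at p
    exact Int.not_odd_iff_even.2 p q
  rintro (a | f) (a' | f') e
  · exact congrArg _ (Subtype.ext e)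
  · exact absurd e (key a f')
  · exact absurd e.symm (key a' f)
  · exact congrArg _ (Subtype.ext e)

lemma bpos_ne (w : T.W) (b : T.B) : bpos b ≠ w.1 := fun e => by
  rcases b with a | f
  · obtain ⟨p, q⟩ := corners_par (mem_of_mem_erase a.2)
    simp only [bpos, Sum.elim_inl] at e
    rw [e] at p q
    rcases mids_par w.2 with ⟨x, -⟩ | ⟨-, x⟩
    · exact Int.not_odd_iff_even.2 p x
    · exact Int.not_odd_iff_even.2 q x
  · obtain ⟨p, q⟩ := T.odd f.1 f.2
    simp only [bpos, Sum.elim_inr] at e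
    rw [e] at p q
    rcases mids_par w.2 with ⟨-, x⟩ | ⟨x, -⟩
    · exact Int.not_odd_iff_even.2 x q
    · exact Int.not_odd_iff_even.2 x p

lemma adj_nb4 {p q : Pt} (h : Adj p q) : q - p ∈ nb4 := by
  rw [Adj, abs_eq_max_neg, abs_eq_max_neg] at h
  simp only [mem_nb4, Prod.ext_iff, Prod.fst_sub, Prod.snd_sub]
  omega

lemma card_adj_w (w : T.W) : (univ.filter fun b : T.B => Adj w.1 (bpos b)).card ≤ 4 := by
  refine (card_le_card_of_injOn (t := nb4) (fun b => bpos b - w.1) (fun b hb => ?_) fun a _ b _ e => ?_).trans (by decide)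
  · exact adj_nb4 (by simpa using hb)
  · exact bpos_inj (by simpa using e)

lemma card_adj_b (b : T.B) : (univ.filter fun w : T.W => Adj w.1 (bpos b)).card ≤ 4 := by
  refine (card_le_card_of_injOn (t := nb4) (fun w => bpos b - w.1) (fun w hw => ?_) fun a _ c _ e => ?_).trans (by decide)
  · exact adj_nb4 (by simpa using hw)
  · exact Subtype.ext (by simpa using e)

lemma edge_sum_sq (w w' : T.W) (g : T.B → ℝ) {L : ℝ} (hg : ∀ b, Adj w.1 (bpos b) → |g b| ≤ L) :
    (∑ b, g b * kas w b * kInv T b w') ^ 2 ≤ 4 * L ^ 2 * nearSq w w' := by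
  rw [nearSq, ← sum_filter, ← sum_subset (subset_univ (univ.filter fun b : T.B => Adj w.1 (bpos b))) fun b _ hb => by
    have : kas w b = 0 := by_contra fun h => hb (by simpa using (kas_ne_zero_iff w b).1 h)
    simp [this]]
  refine sq_sum_le_card_mul_sum_sq.trans ((mul_le_mul (Nat.cast_le.2 (card_adj_w w)) le_rfl
    (sum_nonneg fun b _ => sq_nonneg _) (by norm_num)).trans ?_)
  rw [Nat.cast_ofNat, mul_assoc, mul_sum (a := L ^ 2)]
  refine mul_le_mul_of_nonneg_left (sum_le_sum fun b hb => ?_) (by norm_num)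
  have hA := (mem_filter.1 hb).2
  have hk : kas w b ^ 2 = 1 := by rw [sq, kas_sq_edge hA]
  have hL : g b ^ 2 ≤ L ^ 2 := by rw [← sq_abs]; exact pow_le_pow_left₀ (abs_nonneg _) (hg b hA) 2
  rw [mul_pow, mul_pow, hk, mul_one]
  exact mul_le_mul_of_nonneg_right hL (sq_nonneg _)

lemma cov_bound {w w' : T.W} (hw : w ≠ w') (g h : T.B → ℝ) {L L' : ℝ} (hg : ∀ b, Adj w.1 (bpos b) → |g b| ≤ L)
    (hh : ∀ b, Adj w'.1 (bpos b) → |h b| ≤ L') :
    |cov (fun σ => g (σ w)) (fun σ => h (σ w'))| ≤ 2 * L ^ 2 * nearSq w w' + 2 * L' ^ 2 * nearSq w' w := by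
  have a := edge_sum_sq w w' g hg
  have b := edge_sum_sq w' w h hh
  rw [cov_pair hw, abs_neg, abs_mul]
  nlinarith [sq_nonneg (|∑ x, g x * kas w x * kInv T x w'| - |∑ x, h x * kas w' x * kInv T x w|),
    sq_abs (∑ x, g x * kas w x * kInv T x w'), sq_abs (∑ x, h x * kas w' x * kInv T x w)]

/-- white vertices near the square -/
def wins (T : TGraph) (c : Pt) (M : ℕ) : Finset T.W := univ.filter fun w => InBox c (5 * M) w.1

/-- the weighted square sum of the inverse near the square -/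
def jsum (T : TGraph) (c : Pt) (M : ℕ) : ℝ :=
  ∑ w ∈ wins T c M, ∑ w' ∈ wins T c M, dst w.1 w'.1 ^ 2 * nearSq w w'

/-- the constant of the second moment bound -/
def cKey : ℝ := 300000000000 * 503644184 + 122960

lemma jsum_le {c : Pt} {M : ℕ} (hs : Safe T c M) : jsum T c M ≤ 16 * (cKey * ((mids T.S).card : ℝ) ^ 2) := by
  obtain ⟨-, -, hM, -⟩ := id hs
  have h1 : ∀ w' ∈ wins T c M, ∑ w ∈ wins T c M, dst w.1 w'.1 ^ 2 * nearSq w w' ≤
      16 * (∑ f : T.B1, dst w'.1 f.1 ^ 2 * pot1 w' f ^ 2 + 300000000000 * mom4 w') := fun w' hw' => by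
    have hb : InBox c (5 * M) w'.1 := (mem_filter.1 hw').2
    have hper : ∀ b : T.B, ∑ w ∈ wins T c M, dst w.1 w'.1 ^ 2 * (if Adj w.1 (bpos b) then kInv T b w' ^ 2 else 0) ≤
        if InBox c (6 * M) (bpos b) then 16 * (dst (bpos b) w'.1 ^ 2 * kInv T b w' ^ 2) else 0 := fun b => by
      simp only [mul_ite, mul_zero]
      rw [← sum_filter]
      rcases ((wins T c M).filter fun w => Adj w.1 (bpos b)).eq_empty_or_nonempty with he | ⟨x, hx⟩
      · rw [he, sum_empty]; positivity
      obtain ⟨hx1, hx2⟩ := mem_filter.1 hx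
      have hin : InBox c (6 * M) (bpos b) := dst_le_cast.1 (by
        have := dst_le_cast.2 (mem_filter.1 hx1).2
        have := dst_adj hx2
        have : (2 : ℝ) ≤ M := by exact_mod_cast hM
        push_cast at *
        linarith [dst_triangle (bpos b) x.1 c])
      rw [if_pos hin]
      refine (sum_le_card_nsmul _ _ (4 * (dst (bpos b) w'.1 ^ 2 * kInv T b w' ^ 2)) fun w hw => ?_).trans ?_
      · have hA := dst_adj (mem_filter.1 hw).2
        have h1 := dst_one_le (bpos_ne w' b)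
        have hd : dst w.1 w'.1 ≤ 2 * dst (bpos b) w'.1 := by
          linarith [dst_triangle w.1 (bpos b) w'.1, dst_comm w.1 (bpos b)]
        calc _ ≤ (2 * dst (bpos b) w'.1) ^ 2 * kInv T b w' ^ 2 :=
              mul_le_mul_of_nonneg_right (pow_le_pow_left₀ (dst_nonneg _ _) hd 2) (sq_nonneg _)
          _ = _ := by ring
      · rw [nsmul_eq_mul, show 16 * (dst (bpos b) w'.1 ^ 2 * kInv T b w' ^ 2) =
          (4 : ℝ) * (4 * (dst (bpos b) w'.1 ^ 2 * kInv T b w' ^ 2)) by ring]
        refine mul_le_mul_of_nonneg_right ?_ (by positivity)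
        exact_mod_cast (card_le_card (filter_subset_filter _ (subset_univ _))).trans (card_adj_b b)
    simp only [nearSq, mul_sum]
    rw [sum_comm]
    refine (sum_le_sum fun b _ => hper b).trans ?_
    rw [Fintype.sum_sum_type, ← sum_filter, ← sum_filter, ← mul_sum, ← mul_sum, mul_add, add_comm]
    refine add_le_add (mul_le_mul_of_nonneg_left ?_ (by norm_num))
      (mul_le_mul_of_nonneg_left (pot0_bound hs w' hb) (by norm_num))
    refine (sum_le_sum_of_subset_of_nonneg (filter_subset _ _) fun f _ _ => mul_nonneg (sq_nonneg _) (sq_nonneg _)).trans_eq ?_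
    exact sum_congr rfl fun f _ => by rw [dst_comm w'.1 f.1]; rfl
  rw [jsum, sum_comm]
  refine (sum_le_sum h1).trans ((sum_le_sum_of_subset_of_nonneg (subset_univ _) fun w' _ _ => ?_).trans ?_)
  · have : 0 ≤ mom4 w' := sum_nonneg fun w _ => mul_nonneg (pow_nonneg (dst_nonneg _ _) 4) (sq_nonneg _)
    have := sum_nonneg fun f (_ : f ∈ (univ : Finset T.B1)) =>
      mul_nonneg (sq_nonneg (dst w'.1 f.1)) (sq_nonneg (pot1 w' f))
    positivity
  · rw [← mul_sum, sum_add_distrib, ← mul_sum, cKey]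
    have := pot1_total (T := T)
    have := mom4_total (T := T)
    nlinarith

end Vale.Agent.P155
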