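import Vale.Agent.P155.Linear

/-!
# P155: in a matching both kinds of black vertices form forests

A cycle of corners would bound a region whose centres and corners are matched among themselves;
linear algebra forbids the count this needs.
-/

open Finset Matrix

noncomputable section

namespace Vale.Agent.P155

open scoped Classical

variable {T : TGraph}

lemma eAlong_cases {w : Pt} (hw : w ∈ mids T.S) :
    Odd w.1 ∧ Even w.2 ∧ eAlong w = (1, 0) ∧ eAcross w = (0, 1) ∨
      Even w.1 ∧ Odd w.2 ∧ eAlong w = (0, 1) ∧ eAcross w = (-1, 0) := by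
  rcases mids_par hw with ⟨a, b⟩ | ⟨a, b⟩
  · exact Or.inl ⟨a, b, by simp [eAlong, a], by simp [eAcross, a]⟩
  · have := Int.not_odd_iff_even.2 a
    exact Or.inr ⟨a, b, by simp [eAlong, this], by simp [eAcross, this]⟩

lemma adj_corner {w a : Pt} (hw : w ∈ mids T.S) (ha : a ∈ corners T.S) :
    Adj w a ↔ a = w + eAlong w ∨ a = w - eAlong w := by
  obtain ⟨p1, p2⟩ := corners_par ha
  rw [Int.even_iff] at p1 p2
  rw [Adj, abs_eq_max_neg, abs_eq_max_neg]
  rcases eAlong_cases hw with ⟨q1, q2, e, -⟩ | ⟨q1, q2, e, -⟩ <;>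
    simp only [e, Int.odd_iff, Int.even_iff, Prod.ext_iff, Prod.fst_add, Prod.snd_add, Prod.fst_sub,
      Prod.snd_sub] at q1 q2 ⊢ <;> omega

lemma adj_centre {w f : Pt} (hw : w ∈ mids T.S) (hf : f ∈ T.S) :
    Adj w f ↔ f = w + eAcross w ∨ f = w - eAcross w := by
  obtain ⟨p1, p2⟩ := T.odd f hf
  rw [Int.odd_iff] at p1 p2
  rw [Adj, abs_eq_max_neg, abs_eq_max_neg]
  rcases eAlong_cases hw with ⟨q1, q2, -, e⟩ | ⟨q1, q2, -, e⟩ <;>
    simp only [e, Int.odd_iff, Int.even_iff, Prod.ext_iff, Prod.fst_add, Prod.snd_add, Prod.fst_sub,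
      Prod.snd_sub] at q1 q2 ⊢ <;> omega

lemma eAlong_ne (w : Pt) : w + eAlong w ≠ w - eAlong w := by
  unfold eAlong; split_ifs <;> simp [Prod.ext_iff] <;> omega

lemma eAcross_ne (w : Pt) : w + eAcross w ≠ w - eAcross w := by
  unfold eAcross; split_ifs <;> simp [Prod.ext_iff] <;> omega

lemma sinc_abs {w e p : Pt} (hne : w + e ≠ w - e) :
    |sinc w e p| = if p = w + e ∨ p = w - e then 1 else 0 := by
  unfold sinc
  by_cases h1 : p = w + e
  · have : p ≠ w - e := fun h => hne (h1.symm.trans h)
    simp [h1, hne]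
  · by_cases h2 : p = w - e <;> simp [h1, h2, Ne.symm hne]

/-- the entries are signs on the edges and zero elsewhere -/
lemma abs_kas (w : T.W) (b : T.B) : |kas w b| = if Adj w.1 (bpos b) then 1 else 0 := by
  rcases b with a | f
  · simp only [kas, Sum.elim_inl, sinc_abs (eAlong_ne _), bpos, adj_corner w.2 (mem_of_mem_erase a.2)]
  · simp only [kas, Sum.elim_inr, sinc_abs (eAcross_ne _), bpos, adj_centre w.2 f.2]

lemma kas_ne_zero_iff (w : T.W) (b : T.B) : kas w b ≠ 0 ↔ Adj w.1 (bpos b) := by
  rw [← abs_ne_zero, abs_kas]; split_ifs with h <;> simp [h]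

lemma kas_sq_edge {w : T.W} {b : T.B} (h : Adj w.1 (bpos b)) : kas w b * kas w b = 1 := by
  rw [← abs_mul_abs_self, abs_kas, if_pos h, one_mul]

/-- a functional graph has a triangular determinant -/
lemma det_parent {A : Type*} [Fintype A] [DecidableEq A] (M : Matrix A A ℝ) (nxtA : A → A → Prop)
    (hs : ∀ a a', M a a' ≠ 0 → a' = a ∨ nxtA a a')
    (hu : ∀ a b c, nxtA a b → nxtA a c → b = c)
    (hac : ∀ p : Equiv.Perm A, (∀ a, p a ≠ a → nxtA a (p a)) → p = 1) :
    M.det = ∏ a, M a a := by
  rw [← det_transpose, det_apply']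
  rw [Finset.sum_eq_single 1 (fun p _ hp => ?_) (by simp)]
  · simp
  · by_contra h
    obtain ⟨-, h2⟩ := mul_ne_zero_iff.1 h
    rw [prod_ne_zero_iff] at h2
    exact hp (hac p fun a ha => ((hs a (p a) (h2 a (mem_univ a))).resolve_left ha))

variable {σ : T.W ≃ T.B} (hσ : σ ∈ matchings T)

include hσ in
lemma adj_symm (b : T.B) : Adj (σ.symm b).1 (bpos b) := by
  have := (mem_filter.1 hσ).2 (σ.symm b)
  rwa [Equiv.apply_symm_apply] at this

/-- a square beside the root is missing -/
lemma root_zero {y : T.B1 → ℝ} {p : Pt} (hz : ∀ d ∈ dg4, ext y (p + d) = ext y (p + (1, 1)))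
    (hp : p = T.root) : ext y (p + (1, 1)) = 0 := by
  obtain ⟨d, hd, hn⟩ := T.root_bd
  rw [← hz d hd, hp, ext_not y hn]

/-- if every side at a corner has equal values across, so do the four squares at it -/
lemma around {y : T.B1 → ℝ} {a : Pt} (ha : a ∈ corners T.S)
    (hy : ∀ w : T.W, Adj w.1 a → grad1 y w = 0) :
    ∀ d ∈ dg4, ext y (a + d) = ext y (a + (1, 1)) := by
  obtain ⟨p1, p2⟩ := corners_par ha
  rw [Int.even_iff] at p1 p2
  have key : ∀ d ∈ dg4, ∀ d' ∈ dg4, (d.1 = d'.1 ∨ d.2 = d'.2) → ext y (a + d) = ext y (a + d') := by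
    intro d hd d' hd' hdd
    by_cases hm : ((d.1 + d'.1) / 2 + a.1, (d.2 + d'.2) / 2 + a.2) ∈ mids T.S
    · by_cases he : d = d'
      · rw [he]
      set w : T.W := ⟨_, hm⟩
      have hA : Adj w.1 a := by
        rw [Adj, abs_eq_max_neg, abs_eq_max_neg]
        rcases mem_dg4.1 hd with rfl | rfl | rfl | rfl <;> rcases mem_dg4.1 hd' with rfl | rfl | rfl | rfl <;>
          simp [w] at hdd he ⊢
      have := hy w hA
      simp only [grad1, sub_eq_zero] at this
      have e : a + d = w.1 + eAcross w.1 ∧ a + d' = w.1 - eAcross w.1 ∨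
          a + d = w.1 - eAcross w.1 ∧ a + d' = w.1 + eAcross w.1 := by
        rcases eAlong_cases w.2 with ⟨q1, q2, -, e⟩ | ⟨q1, q2, -, e⟩ <;>
        rcases mem_dg4.1 hd with rfl | rfl | rfl | rfl <;> rcases mem_dg4.1 hd' with rfl | rfl | rfl | rfl <;>
          (rw [e]; simp [w, Prod.ext_iff, Int.odd_iff, Int.even_iff] at q1 q2 hdd he ⊢ <;> omega)
      rcases e with ⟨e1, e2⟩ | ⟨e1, e2⟩ <;> rw [e1, e2, this]
    · by_cases he : d = d'
      · rw [he]
      have out : ∀ x ∈ dg4, x = d ∨ x = d' → a + x ∉ T.S := fun x _ hx hS => hm (by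
        rcases hx with rfl | rfl
        · have : ((x.1 + d'.1) / 2 - x.1, (x.2 + d'.2) / 2 - x.2) ∈ nb4 := by
            rcases mem_dg4.1 hd with rfl | rfl | rfl | rfl <;> rcases mem_dg4.1 hd' with rfl | rfl | rfl | rfl <;>
              simp [nb4] at hdd he ⊢
          have := side_mem hS this
          convert this using 1
          simp [Prod.ext_iff]; omega
        · have : ((d.1 + x.1) / 2 - x.1, (d.2 + x.2) / 2 - x.2) ∈ nb4 := by
            rcases mem_dg4.1 hd with rfl | rfl | rfl | rfl <;> rcases mem_dg4.1 hd' with rfl | rfl | rfl | rfl <;>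
              simp [nb4] at hdd he ⊢
          have := side_mem hS this
          convert this using 1
          simp [Prod.ext_iff]; omega)
      rw [ext_not y (out d hd (Or.inl rfl)), ext_not y (out d' hd' (Or.inr rfl))]
  intro d hd
  rcases mem_dg4.1 hd with rfl | rfl | rfl | rfl
  · rfl
  · exact key _ hd _ (by simp [dg4]) (Or.inr rfl)
  · exact key _ hd _ (by simp [dg4]) (Or.inl rfl)
  · exact (key _ hd (1, -1) (by simp [dg4]) (Or.inr rfl)).trans (key _ (by simp [dg4]) _ (by simp [dg4]) (Or.inl rfl))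

/-- the successor of a corner -/
def Par0 (σ : T.W ≃ T.B) (a a' : T.B0) : Prop := a.1 + a'.1 = (σ.symm (Sum.inl a)).1 + (σ.symm (Sum.inl a)).1

/-- the successor of a centre -/
def Par1 (σ : T.W ≃ T.B) (f f' : T.B1) : Prop := f.1 + f'.1 = (σ.symm (Sum.inr f)).1 + (σ.symm (Sum.inr f)).1

include hσ in
lemma kas_parent (a b : T.B0) : kas (σ.symm (Sum.inl a)) (Sum.inl b) =
    kas (σ.symm (Sum.inl a)) (Sum.inl a) * ((if b = a then 1 else 0) - if Par0 σ a b then 1 else 0) := by
  set w := σ.symm (Sum.inl a) with hw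
  have hA := (adj_corner w.2 (mem_of_mem_erase a.2)).1 (adj_symm hσ (Sum.inl a))
  have hne := eAlong_ne w.1
  simp only [kas, Sum.elim_inl, sinc, Par0, ← hw, ← Subtype.coe_inj]
  have e1 : a.1 = w.1 + eAlong w.1 → (a.1 + b.1 = w.1 + w.1 ↔ b.1 = w.1 - eAlong w.1) := fun h => by
    simp only [h, Prod.ext_iff, Prod.fst_add, Prod.snd_add, Prod.fst_sub, Prod.snd_sub]; omega
  have e2 : a.1 = w.1 - eAlong w.1 → (a.1 + b.1 = w.1 + w.1 ↔ b.1 = w.1 + eAlong w.1) := fun h => by
    simp only [h, Prod.ext_iff, Prod.fst_add, Prod.snd_add, Prod.fst_sub, Prod.snd_sub]; omega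
  rcases hA with h | h
  · simp only [e1 h]
    simp [h, hne]
  · simp only [e2 h]
    simp [h, Ne.symm hne]

include hσ in
/-- no cycle of corners -/
lemma acyclic0 (p : Equiv.Perm T.B0) (hp : ∀ a, p a ≠ a → Par0 σ a (p a)) : p = 1 := by
  by_contra hne
  obtain ⟨a₀, ha₀⟩ : ∃ a, p a ≠ a := by
    by_contra h; push Not at h; exact hne (Equiv.ext h)
  set C := univ.filter fun a => p.SameCycle a₀ a with hC
  have hCp : ∀ a, a ∈ C → p a ≠ a := fun a ha h => by
    simp only [C, mem_filter, mem_univ, true_and] at ha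
    exact ha₀ ((ha.apply_eq_self_iff).2 h)
  have hmem : ∀ a, p a ∈ C ↔ a ∈ C := fun a => by simp [C, Equiv.Perm.sameCycle_apply_right]
  have hmem' : ∀ a, p.symm a ∈ C ↔ a ∈ C := fun a => by
    rw [← hmem (p.symm a), Equiv.apply_symm_apply]
  set s := fun a : T.B0 => kas (σ.symm (Sum.inl a)) (Sum.inl a)
  have hrow : ∀ a ∈ C, ∀ b, s a * kas (σ.symm (Sum.inl a)) (Sum.inl b) =
      (if b = a then 1 else 0) - if b = p a then (1:ℝ) else 0 := fun a ha b => by
    have hpar : Par0 σ a b ↔ b = p a := by
      have h := hp a (hCp a ha)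
      refine ⟨fun hb => Subtype.ext ?_, fun hb => hb ▸ h⟩
      unfold Par0 at h hb
      rw [← h] at hb
      exact add_left_cancel hb
    rw [kas_parent hσ a b, ← mul_assoc, kas_sq_edge (adj_symm hσ (Sum.inl a)), one_mul]
    simp only [hpar]
  -- the signed indicator of the cycle
  set z : T.W → ℝ := fun w => ∑ a ∈ C, if w = σ.symm (Sum.inl a) then s a else 0
  have hzval : ∀ a ∈ C, z (σ.symm (Sum.inl a)) = s a := fun a ha => by
    simp only [z]
    rw [sum_eq_single_of_mem a ha fun c _ hc => if_neg fun e => hc (by simpa using (σ.symm.injective e).symm)]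
    simp
  have hdiv : ∀ b : T.B0, ∑ w, z w * kas w (Sum.inl b) = 0 := fun b => by
    simp only [z, sum_mul, ite_mul, zero_mul]
    rw [sum_comm]
    simp only [sum_ite_eq', mem_univ, if_true]
    rw [sum_congr rfl fun a ha => hrow a ha b, sum_sub_distrib, sum_ite_eq,
      sum_congr rfl fun a _ => show (if b = p a then (1:ℝ) else 0) = if p.symm b = a then 1 else 0 by
        simp only [Equiv.symm_apply_eq],
      sum_ite_eq]
    simp only [hmem', sub_self]
  -- so it is a gradient of the centres
  have key : ∀ x : T.W → ℝ, (∀ b : T.B0, ∑ w, x w * kas w (Sum.inl b) = 0) →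
      ∃ y : T.B1 → ℝ, ∀ w, x w = grad1 y w := by
    intro x hx
    set v := kInv T *ᵥ x
    have hv : ∀ w, x w = grad0 (v ∘ Sum.inl) w + grad1 (v ∘ Sum.inr) w := fun w => by
      rw [← kas_mulVec, mulVec_mulVec, kas_mul_inv, one_mulVec]
    have e0 : ∀ w, grad0 (v ∘ Sum.inl) w = ∑ b : T.B0, kas w (Sum.inl b) * v (Sum.inl b) := fun w => by
      simp only [kas, Sum.elim_inl, sinc, sub_mul, sum_sub_distrib, grad0, Function.comp_def,
        sum_ite_val (fun a => v (Sum.inl a))]
    have h0 : ∑ w, grad0 (v ∘ Sum.inl) w * x w = 0 := by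
      simp only [e0, sum_mul]
      rw [sum_comm]
      refine sum_eq_zero fun b _ => ?_
      rw [sum_congr rfl fun w _ => show kas w (Sum.inl b) * v (Sum.inl b) * x w = v (Sum.inl b) * (x w * kas w (Sum.inl b)) by ring,
        ← mul_sum, hx b, mul_zero]
    simp only [hv, mul_add, sum_add_distrib, grad_orth, add_zero] at h0
    have hg := (sum_eq_zero_iff_of_nonneg fun w _ => mul_self_nonneg (grad0 (v ∘ Sum.inl) w)).1 h0
    exact ⟨_, fun w => by rw [hv w, mul_self_eq_zero.1 (hg w (mem_univ w)), zero_add]⟩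
  obtain ⟨y, hy⟩ := key z hdiv
  have hCne : a₀ ∈ C := by simp [C, Equiv.Perm.SameCycle.refl]
  have hy0 : y ≠ 0 := fun h => by
    have := hy (σ.symm (Sum.inl a₀))
    rw [hzval a₀ hCne, h] at this
    simp [grad1, ext] at this
    exact (kas_ne_zero_iff _ _).2 (adj_symm hσ (Sum.inl a₀)) this
  -- the sides off the cycle inside the region
  set Y := univ.filter fun f : T.B1 => y f ≠ 0
  set EY := univ.filter fun w : T.W => z w = 0 ∧ ext y (w.1 + eAcross w.1) ≠ 0
  set I := univ.filter fun a : T.B0 => a ∉ C ∧ ext y (a.1 + (1, 1)) ≠ 0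
  have hzC : ∀ w, z w ≠ 0 → ∃ a ∈ C, w = σ.symm (Sum.inl a) := fun w hw => by
    obtain ⟨a, ha, h⟩ := exists_ne_zero_of_sum_ne_zero hw
    exact ⟨a, ha, (ite_ne_right_iff.1 h).1⟩
  have hoff : ∀ c ∈ corners T.S, (∀ a ∈ C, a.1 ≠ c) → ∀ w : T.W, Adj w.1 c → grad1 y w = 0 :=
    fun c hc hnot w hA => by
      rw [← hy]
      by_contra hw
      obtain ⟨a, ha, rfl⟩ := hzC w hw
      set w' := σ.symm (Sum.inl a) with hw'
      have hc' := (adj_corner w'.2 hc).1 hA
      have h1 := (adj_corner w'.2 (mem_of_mem_erase a.2)).1 (adj_symm hσ (Sum.inl a))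
      have hpa : a.1 + (p a).1 = w'.1 + w'.1 := hp a (hCp a ha)
      refine (show c = a.1 ∨ c = (p a).1 from ?_).elim (fun h => hnot a ha h.symm)
        (fun h => hnot (p a) ((hmem a).2 ha) h.symm)
      simp only [Prod.ext_iff, Prod.fst_add, Prod.snd_add, Prod.fst_sub, Prod.snd_sub] at h1 hc' hpa ⊢
      omega
  have hside : ∀ w ∈ EY, ext y (w.1 + eAcross w.1) = ext y (w.1 - eAcross w.1) := fun w hw => by
    have h := hy w
    rw [(mem_filter.1 hw).2.1] at h
    exact sub_eq_zero.1 h.symm
  have hcount : EY.card ≤ Y.card + I.card := by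
    have hsub : EY.map σ.toEmbedding ⊆ I.disjSum Y := fun b hb => by
      obtain ⟨w, hw, rfl⟩ := mem_map.1 hb
      have hA := (mem_filter.1 hσ).2 w
      obtain ⟨hz0, hne'⟩ := (mem_filter.1 hw).2
      rcases hb' : σ w with a | f
      · rw [hb', bpos, Sum.elim_inl] at hA
        simp only [Equiv.toEmbedding_apply, hb', inl_mem_disjSum, I, mem_filter, mem_univ, true_and]
        have hac : a ∉ C := fun haC => by
          have := hzval a haC
          rw [← hb', Equiv.symm_apply_apply, hz0] at this
          exact (kas_ne_zero_iff _ _).2 (adj_symm hσ (Sum.inl a)) this.symm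
        refine ⟨hac, ?_⟩
        have hc := mem_of_mem_erase a.2
        have har := around hc (hoff a.1 hc fun c hcC h => hac (Subtype.ext h ▸ hcC))
        have : w.1 + eAcross w.1 - a.1 ∈ dg4 := by
          rcases (adj_corner w.2 hc).1 hA with h | h <;>
          rcases eAlong_cases w.2 with ⟨-, -, e1, e2⟩ | ⟨-, -, e1, e2⟩ <;>
            simp [e1, e2, h, mem_dg4, Prod.ext_iff]
        have h := har _ this
        rw [add_sub_cancel] at h
        rwa [← h]
      · rw [hb', bpos, Sum.elim_inr] at hA
        simp only [Equiv.toEmbedding_apply, hb', inr_mem_disjSum, Y, mem_filter, mem_univ, true_and]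
        rcases (adj_centre w.2 f.2).1 hA with h | h
        · rwa [← h, ext_mem] at hne'
        · rwa [hside w hw, ← h, ext_mem] at hne'
    have := card_le_card hsub
    rwa [card_map, card_disjSum, add_comm] at this
  -- flows inside the region
  set lam : (EY → ℝ) →ₗ[ℝ] (I → ℝ) :=
    { toFun := fun x b => ∑ w : EY, x w * kas w.1 (Sum.inl b.1)
      map_add' := fun x x' => by funext b; simp [add_mul, sum_add_distrib]
      map_smul' := fun c x => by funext b; simp [mul_assoc, mul_sum] }
  set gr : (Y → ℝ) →ₗ[ℝ] (EY → ℝ) :=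
    { toFun := fun t w => grad1 (fun f => if h : f ∈ Y then t ⟨f, h⟩ else 0) w.1
      map_add' := fun t t' => by
        funext w; simp only [grad1, Pi.add_apply, ext]; split_ifs <;> ring
      map_smul' := fun c t => by
        funext w; simp only [grad1, Pi.smul_apply, smul_eq_mul, RingHom.id_apply, ext]; split_ifs <;> ring }
  have hker : LinearMap.ker lam ≤ LinearMap.range gr := by
    intro x hx
    rw [LinearMap.mem_ker] at hx
    set X : T.W → ℝ := fun w => if h : w ∈ EY then x ⟨w, h⟩ else 0
    have hX : ∀ g : T.W → ℝ, ∑ w, X w * g w = ∑ w : EY, x w * g w.1 := fun g => by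
      rw [← sum_subset (subset_univ EY) fun w _ hw => by simp [X, hw], ← sum_coe_sort]
      exact sum_congr rfl fun w _ => by simp [X]
    set D := fun b : T.B0 => ∑ w, X w * kas w (Sum.inl b)
    have hDoff : ∀ b, b ∉ C → D b = 0 := fun b hb => by
      by_cases hbI : b ∈ I
      · have := congrFun hx ⟨b, hbI⟩
        simp only [lam, LinearMap.coe_mk, AddHom.coe_mk, Pi.zero_apply] at this
        simp only [D, hX]
        exact this
      · refine sum_eq_zero fun w _ => ?_
        by_cases hw : w ∈ EY
        · by_contra hne'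
          refine hbI (mem_filter.2 ⟨mem_univ _, hb, ?_⟩)
          have hA := (kas_ne_zero_iff _ _).1 (right_ne_zero_of_mul hne')
          rw [bpos, Sum.elim_inl] at hA
          have hc := mem_of_mem_erase b.2
          have har := around hc (hoff b.1 hc fun c hcC h => hb (Subtype.ext h ▸ hcC))
          have : w.1 + eAcross w.1 - b.1 ∈ dg4 := by
            rcases (adj_corner w.2 hc).1 hA with h | h <;>
            rcases eAlong_cases w.2 with ⟨-, -, e1, e2⟩ | ⟨-, -, e1, e2⟩ <;>
              simp [e1, e2, h, mem_dg4, Prod.ext_iff]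
          have h := har _ this
          rw [add_sub_cancel] at h
          rw [← h]
          exact (mem_filter.1 hw).2.2
        · simp [X, hw]
    have hDC : ∑ b ∈ C, D b = 0 := by
      rw [sum_subset (subset_univ C) fun b _ hb => hDoff b hb, sum_comm]
      refine sum_eq_zero fun w _ => ?_
      by_cases hw : w ∈ EY
      · rw [← mul_sum]
        refine mul_eq_zero_of_right _ ?_
        have e := kas_mulVec (T := T) (Sum.elim (fun _ => (1:ℝ)) fun _ => 0) w
        simp only [mulVec, dotProduct, Fintype.sum_sum_type, Sum.elim_inl, Sum.elim_inr, mul_one, mul_zero,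
          sum_const_zero, add_zero, Function.comp_def] at e
        rw [e]
        have hroot : ∀ c ∈ corners T.S, c = T.root → Adj w.1 c → False := fun c hc hcr hA => by
          have har := around hc (hoff c hc fun a _ h => (ne_of_mem_erase a.2) (h.trans hcr))
          have : w.1 + eAcross w.1 - c ∈ dg4 := by
            rcases (adj_corner w.2 hc).1 hA with h | h <;>
            rcases eAlong_cases w.2 with ⟨-, -, e1, e2⟩ | ⟨-, -, e1, e2⟩ <;>
              simp [e1, e2, h, mem_dg4, Prod.ext_iff]
          have h := har _ this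
          rw [add_sub_cancel, root_zero har hcr] at h
          exact (mem_filter.1 hw).2.2 h
        have hend : ∀ c, (c = w.1 + eAlong w.1 ∨ c = w.1 - eAlong w.1) → c ∈ (corners T.S).erase T.root := by
          intro c hc
          have hcm : c ∈ corners T.S := by
            obtain ⟨f, hf, d, hd, he⟩ : ∃ f ∈ T.S, ∃ d ∈ nb4, f + d = w.1 := by
              have := w.2
              simp only [mids, mem_biUnion, mem_image] at this
              exact this
            have : c - f ∈ dg4 := by
              obtain ⟨o1, o2⟩ := T.odd f hf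
              rcases eAlong_cases w.2 with ⟨q1, q2, e1, -⟩ | ⟨q1, q2, e1, -⟩ <;>
              rw [e1] at hc <;> rcases hc with rfl | rfl <;>
              rcases mem_nb4.1 hd with rfl | rfl | rfl | rfl <;>
                simp [← he, mem_dg4, Prod.ext_iff, Int.odd_iff, Int.even_iff] at o1 o2 q1 q2 ⊢ <;> omega
            simpa using corner_mem hf this
          exact mem_erase.2 ⟨fun h => hroot c hcm h ((adj_corner w.2 hcm).2 hc), hcm⟩
        simp [grad0, grad1, ext, hend _ (Or.inl rfl), hend _ (Or.inr rfl)]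
      · simp [X, hw]
    -- partial sums along the cycle
    set n := Function.minimalPeriod p a₀
    have hper : Function.IsPeriodicPt p n a₀ := Function.isPeriodicPt_minimalPeriod p a₀
    have hn : 0 < n := Function.IsPeriodicPt.minimalPeriod_pos (n := orderOf p) (orderOf_pos p) (by
      rw [Function.IsPeriodicPt, Function.IsFixedPt, Equiv.Perm.iterate_eq_pow, pow_orderOf_eq_one]; rfl)
    have hCeq : C = (range n).image fun i => p^[i] a₀ := by
      ext b
      simp only [C, mem_filter, mem_univ, true_and, mem_image, mem_range]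
      refine ⟨fun h => ?_, ?_⟩
      · obtain ⟨i, -, hi⟩ := h.exists_pow_eq'
        exact ⟨i % n, Nat.mod_lt _ hn, by rw [Function.iterate_mod_minimalPeriod_eq, Equiv.Perm.iterate_eq_pow, hi]⟩
      · rintro ⟨i, -, rfl⟩
        rw [Equiv.Perm.iterate_eq_pow]
        exact Equiv.Perm.sameCycle_pow_right.2 (Equiv.Perm.SameCycle.refl _ _)
    have hinj : ∀ i < n, ∀ j < n, p^[i] a₀ = p^[j] a₀ → i = j := fun i hi j hj h =>
      Function.iterate_injOn_Iio_minimalPeriod hi hj h
    set t : T.B0 → ℝ := fun b => ∑ i ∈ range n, if p^[i] a₀ = b then -(∑ j ∈ range (i + 1), D (p^[j] a₀)) else 0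
    have htval : ∀ i < n, t (p^[i] a₀) = -(∑ j ∈ range (i + 1), D (p^[j] a₀)) := fun i hi => by
      simp only [t]
      rw [sum_eq_single_of_mem i (mem_range.2 hi) fun j hj hji => if_neg fun e => hji (hinj j (mem_range.1 hj) i hi e)]
      simp
    set g : T.W → ℝ := fun w => ∑ a ∈ C, if w = σ.symm (Sum.inl a) then s a * t a else 0
    have hg : ∀ b, ∑ w, g w * kas w (Sum.inl b) = if b ∈ C then t b - t (p.symm b) else 0 := fun b => by
      simp only [g, sum_mul, ite_mul, zero_mul]
      rw [sum_comm]
      simp only [sum_ite_eq', mem_univ, if_true]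
      rw [sum_congr rfl fun a ha => show s a * t a * kas (σ.symm (Sum.inl a)) (Sum.inl b) =
          (if b = a then t a else 0) - if p.symm b = a then t a else 0 by
        rw [mul_right_comm, hrow a ha b]
        simp only [Equiv.symm_apply_eq, sub_mul, ite_mul, one_mul, zero_mul],
        sum_sub_distrib, sum_ite_eq, sum_ite_eq]
      simp only [hmem']
      split_ifs <;> ring
    have hflow : ∀ b, ∑ w, (X w + g w) * kas w (Sum.inl b) = 0 := fun b => by
      simp only [add_mul, sum_add_distrib, hg]
      show D b + _ = 0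
      by_cases hb : b ∈ C
      · rw [if_pos hb]
        rw [hCeq, mem_image] at hb
        obtain ⟨i, hi, rfl⟩ := hb
        rw [mem_range] at hi
        rw [htval i hi]
        rcases i with - | i
        · have e : p.symm a₀ = p^[n - 1] a₀ := by
            rw [Equiv.symm_apply_eq, ← Function.iterate_succ_apply' (⇑p), Nat.succ_eq_add_one, Nat.sub_add_cancel hn, hper.eq]
          simp only [Function.iterate_zero, id_eq, e, htval (n - 1) (by omega), Nat.sub_add_cancel hn]
          have : ∑ j ∈ range n, D (p^[j] a₀) = 0 := by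
            rw [← hDC, hCeq, sum_image fun i hi j hj h => hinj i (mem_range.1 hi) j (mem_range.1 hj) h]
          rw [this]; simp
        · rw [Function.iterate_succ_apply', Equiv.symm_apply_apply, htval i (by omega), sum_range_succ _ (i + 1),
            Function.iterate_succ_apply']
          ring
      · rw [if_neg hb, hDoff b hb, add_zero]
    obtain ⟨y', hy'⟩ := key (fun w => X w + g w) hflow
    refine ⟨fun f => y' f.1, funext fun w => ?_⟩
    have hgw : g w.1 = 0 := sum_eq_zero fun a ha => if_neg fun e => by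
      have := hzval a ha
      rw [← e, (mem_filter.1 w.2).2.1] at this
      exact (kas_ne_zero_iff _ _).2 (adj_symm hσ (Sum.inl a)) this.symm
    have hw' : x w = grad1 y' w.1 := by rw [← hy', hgw, add_zero]; simp [X]
    have hval : ∀ q : Pt, ext y q ≠ 0 → ext (fun f : T.B1 => if h : f ∈ Y then (fun f : Y => y' f.1) ⟨f, h⟩ else 0) q = ext y' q := by
      intro q hq
      by_cases hqS : q ∈ T.S
      · have hqY : (⟨q, hqS⟩ : T.B1) ∈ Y := by simpa [Y, ext, hqS] using hq
        simp [ext, hqS, hqY]
      · exact absurd (ext_not y hqS) hq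
    show grad1 _ w.1 = x w
    rw [hw', grad1, grad1, hval _ (mem_filter.1 w.2).2.2, hval _ (hside w.1 w.2 ▸ (mem_filter.1 w.2).2.2)]
  -- the count is too large
  have hgy : gr (fun f => y f.1) = 0 := funext fun w => by
    have e : (fun f : T.B1 => if h : f ∈ Y then (fun f : Y => y f.1) ⟨f, h⟩ else 0) = y := funext fun f => by
      simp only [Y, mem_filter, mem_univ, true_and]
      split_ifs with h
      · rfl
      · exact (not_not.1 h).symm
    show grad1 _ w.1 = 0
    rw [e, ← hy, (mem_filter.1 w.2).2.1]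
  have hkpos : 0 < Module.finrank ℝ (LinearMap.ker gr) := by
    rw [Module.finrank_pos_iff_exists_ne_zero]
    refine ⟨⟨fun f => y f.1, hgy⟩, fun h => ?_⟩
    obtain ⟨f, hf⟩ := Function.ne_iff.1 hy0
    exact hf (congrFun (congrArg Subtype.val h) ⟨f, by simpa [Y] using hf⟩)
  have r1 := lam.finrank_range_add_finrank_ker
  have r2 := gr.finrank_range_add_finrank_ker
  have r3 := Submodule.finrank_mono hker
  have r4 := lam.range.finrank_le
  simp only [Module.finrank_pi, Fintype.card_coe] at r1 r2 r4
  -- every centre of the region and every corner of it is matched into it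
  have hcount' : Y.card + I.card ≤ EY.card := by
    have hsub : I.disjSum Y ⊆ EY.map σ.toEmbedding := fun b hb => by
      refine mem_map.2 ⟨σ.symm b, mem_filter.2 ⟨mem_univ _, ?_⟩, by simp⟩
      have hA := adj_symm hσ b
      have hz0 : z (σ.symm b) = 0 := by
        by_contra h
        obtain ⟨a, ha, e⟩ := hzC _ h
        have hba := σ.symm.injective e
        subst hba
        exact (mem_filter.1 (inl_mem_disjSum.1 hb)).2.1 ha
      refine ⟨hz0, ?_⟩
      have hs : ext y ((σ.symm b).1 + eAcross (σ.symm b).1) = ext y ((σ.symm b).1 - eAcross (σ.symm b).1) := by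
        have h := hy (σ.symm b); rw [hz0] at h; exact sub_eq_zero.1 h.symm
      set w := σ.symm b
      rcases b with a | f
      · obtain ⟨hac, hne'⟩ := (mem_filter.1 (inl_mem_disjSum.1 hb)).2
        rw [bpos, Sum.elim_inl] at hA
        have hc := mem_of_mem_erase a.2
        have har := around hc (hoff a.1 hc fun c hcC h => hac (Subtype.ext h ▸ hcC))
        have : w.1 + eAcross w.1 - a.1 ∈ dg4 := by
          rcases (adj_corner w.2 hc).1 hA with h | h <;>
          rcases eAlong_cases w.2 with ⟨-, -, e1, e2⟩ | ⟨-, -, e1, e2⟩ <;>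
            simp [e1, e2, h, mem_dg4, Prod.ext_iff]
        have h := har _ this
        rw [add_sub_cancel] at h
        rwa [h]
      · have hne' := (mem_filter.1 (inr_mem_disjSum.1 hb)).2
        rw [bpos, Sum.elim_inr] at hA
        rcases (adj_centre w.2 f.2).1 hA with h | h
        · rwa [← h, ext_mem]
        · rwa [hs, ← h, ext_mem]
    have := card_le_card hsub
    rwa [card_map, card_disjSum, add_comm] at this
  omega

end Vale.Agent.P155
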