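import Vale.Agent.P155.Main

/-!
# P155: circulations of test forms and loop areas on every compact part of a domain
-/

open Finset

noncomputable section

namespace Vale.Agent.P155

open scoped Classical

variable {T : TGraph}

/-- the tent function -/
def hat (t : ℝ) : ℝ := max 0 (1 - |t|)

lemma hat_nonneg (t : ℝ) : 0 ≤ hat t := le_max_left _ _

lemma hat_le_one (t : ℝ) : hat t ≤ 1 := max_le zero_le_one (by linarith [abs_nonneg t])

lemma hat_eq_zero {t : ℝ} (h : 1 ≤ |t|) : hat t = 0 := max_eq_left (by linarith)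

lemma hat_lip (s t : ℝ) : |hat s - hat t| ≤ |s - t| := by
  unfold hat
  refine (abs_max_sub_max_le_max _ _ _ _).trans (max_le (by simp) ?_)
  rw [show 1 - |s| - (1 - |t|) = |t| - |s| by ring, abs_sub_comm s t]
  exact abs_abs_sub_abs_le _ _

lemma hat_sum {M : ℕ} (hM : 1 ≤ M) {K : ℕ} (x a : ℤ) (h : |x - a| ≤ ((K : ℤ) - 1) * M) :
    ∑ j ∈ Finset.Icc (-(K : ℤ)) K, hat (((x : ℝ) - ((a + (M : ℤ) * j : ℤ) : ℝ)) / M) = 1 := by
  have hr : (1 : ℝ) ≤ M := by exact_mod_cast hM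
  have hz : (0 : ℤ) < M := by exact_mod_cast hM
  set q : ℤ := (x - a) / M
  set r : ℤ := (x - a) % M
  have hr0 : 0 ≤ r := Int.emod_nonneg _ hz.ne'
  have hr1 : r < M := Int.emod_lt_of_pos _ hz
  have he : (M : ℤ) * q + r = x - a := Int.mul_ediv_add_emod (x - a) (M : ℤ)
  rw [abs_le] at h
  have hq0 : -(K : ℤ) ≤ q := by nlinarith
  have hq1 : q < K := by nlinarith
  have val : ∀ j : ℤ, ((x : ℝ) - ((a + (M : ℤ) * j : ℤ) : ℝ)) / M = ((r : ℝ) / M) + ((q : ℝ) - j) := fun j => by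
    have e : (x : ℝ) = a + M * q + r := by exact_mod_cast (show x = a + (M : ℤ) * q + r by linarith)
    rw [e]; push_cast; field_simp; ring
  simp only [val]
  have u0 : 0 ≤ (r : ℝ) / M := by
    have : (0 : ℝ) ≤ r := by exact_mod_cast hr0
    positivity
  have u1 : (r : ℝ) / M ≤ 1 := (div_le_one (by linarith)).2 (by exact_mod_cast hr1.le)
  rw [sum_eq_add q (q + 1) (by omega) (fun j _ hj => hat_eq_zero ?_)
    (fun hn => absurd (Finset.mem_Icc.2 ⟨hq0, hq1.le⟩) hn)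
    (fun hn => absurd (Finset.mem_Icc.2 ⟨by omega, hq1⟩) hn)]
  · unfold hat
    push_cast
    rw [show (r : ℝ) / M + ((q : ℝ) - q) = r / M by ring, show (r : ℝ) / M + ((q : ℝ) - (q + 1)) = r / M - 1 by ring,
      abs_of_nonneg u0, abs_of_nonpos (by linarith : (r : ℝ) / M - 1 ≤ 0),
      max_eq_right (by linarith), max_eq_right (by linarith)]
    ring
  · rcases (show j + 1 ≤ q ∨ q + 2 ≤ j by omega) with h2 | h2
    · have : (j : ℝ) + 1 ≤ q := by exact_mod_cast h2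
      exact le_trans (by linarith) (le_abs_self _)
    · have : (q : ℝ) + 2 ≤ j := by exact_mod_cast h2
      exact le_trans (by linarith) (neg_le_abs _)

/-- the tent centred at a grid point -/
def tent (g : Pt) (M : ℕ) (p : Pt) : ℝ := hat (((p.1 : ℝ) - g.1) / M) * hat (((p.2 : ℝ) - g.2) / M)

lemma tent_nonneg (g : Pt) (M : ℕ) (p : Pt) : 0 ≤ tent g M p := mul_nonneg (hat_nonneg _) (hat_nonneg _)

lemma tent_le_one (g : Pt) (M : ℕ) (p : Pt) : tent g M p ≤ 1 :=
  mul_le_one₀ (hat_le_one _) (hat_nonneg _) (hat_le_one _)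

lemma tent_zero {g p : Pt} {M : ℕ} (hM : 1 ≤ M) (h : (M : ℝ) ≤ dst p g) : tent g M p = 0 := by
  have hr : (0 : ℝ) < M := by exact_mod_cast hM
  rcases le_max_iff.1 h with h | h
  · rw [tent, hat_eq_zero (by rw [abs_div, abs_of_pos hr]; exact (one_le_div hr).2 h), zero_mul]
  · rw [tent, mul_comm, hat_eq_zero (by rw [abs_div, abs_of_pos hr]; exact (one_le_div hr).2 h), zero_mul]

lemma tent_lip (g : Pt) {M : ℕ} (hM : 1 ≤ M) (p q : Pt) : |tent g M p - tent g M q| ≤ 2 * dst p q / M := by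
  have hr : (0 : ℝ) < M := by exact_mod_cast hM
  have a1 : |hat (((p.1 : ℝ) - g.1) / M) - hat (((q.1 : ℝ) - g.1) / M)| ≤ dst p q / M := by
    refine (hat_lip _ _).trans ?_
    rw [← sub_div, abs_div, abs_of_pos hr, sub_sub_sub_cancel_right]
    exact div_le_div_of_nonneg_right (le_max_left _ _) hr.le
  have a2 : |hat (((p.2 : ℝ) - g.2) / M) - hat (((q.2 : ℝ) - g.2) / M)| ≤ dst p q / M := by
    refine (hat_lip _ _).trans ?_
    rw [← sub_div, abs_div, abs_of_pos hr, sub_sub_sub_cancel_right]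
    exact div_le_div_of_nonneg_right (le_max_right _ _) hr.le
  unfold tent
  set A := hat (((p.1 : ℝ) - g.1) / M)
  set A' := hat (((q.1 : ℝ) - g.1) / M)
  set B := hat (((p.2 : ℝ) - g.2) / M)
  set B' := hat (((q.2 : ℝ) - g.2) / M)
  have b0 : |B| ≤ 1 := by rw [abs_of_nonneg (hat_nonneg _)]; exact hat_le_one _
  have b1 : |A'| ≤ 1 := by rw [abs_of_nonneg (hat_nonneg _)]; exact hat_le_one _
  calc |A * B - A' * B'| = |(A - A') * B + A' * (B - B')| := by ring_nf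
    _ ≤ |A - A'| * |B| + |A'| * |B - B'| := (abs_add_le _ _).trans_eq (by rw [abs_mul, abs_mul])
    _ ≤ dst p q / M * 1 + 1 * (dst p q / M) :=
      add_le_add (mul_le_mul a1 b0 (abs_nonneg _) (div_nonneg (dst_nonneg _ _) hr.le))
        (mul_le_mul b1 a2 (abs_nonneg _) zero_le_one)
    _ = _ := by ring

lemma deep_support {c p : Pt} {m κ : ℕ} (hm : 1 ≤ m) (hout : ∀ f ∈ T.S, InBox c (κ * m) f) (h : Deep T m p) :
    InBox c ((κ + 1) * m) p := by
  have hb : InBox p m (2 * (p.1 / 2) + 1, 2 * (p.2 / 2) + 1) := by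
    rw [InBox, abs_le, abs_le]; omega
  have := hout _ (h _ ⟨p.1 / 2, rfl⟩ ⟨p.2 / 2, rfl⟩ hb)
  rw [InBox, abs_le, abs_le] at this ⊢
  push_cast at this ⊢
  rw [add_mul, one_mul]
  omega

lemma sup_bound {c : Pt} {m κ : ℕ} {F : Pt → ℝ} {L : ℝ} (hm : 1 ≤ m) (hout : ∀ f ∈ T.S, InBox c (κ * m) f)
    (hL : 0 ≤ L) (hl : ∀ p q, |F p - F q| ≤ L * dst p q) (hd : ∀ p, F p ≠ 0 → Deep T m p) (p : Pt) :
    |F p| ≤ L * ((2 * κ + 3) * m) := by
  have hr : (1 : ℝ) ≤ m := by exact_mod_cast hm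
  by_cases h : F p = 0
  · rw [h, abs_zero]; positivity
  have hp := dst_le_cast.2 (deep_support hm hout (hd p h))
  set q : Pt := (c.1 + ((κ + 2) * m : ℕ), c.2)
  have hq : F q = 0 := by_contra fun e => by
    have := (deep_support hm hout (hd q e)).1
    simp only [q, add_sub_cancel_left, Nat.abs_cast] at this
    norm_cast at this
    nlinarith
  have hcq : dst c q = ((κ + 2) * m : ℕ) := by
    simp only [q, dst, sub_self, abs_zero]
    push_cast
    rw [sub_add_cancel_left, abs_neg, abs_of_nonneg (by positivity), max_eq_left (by positivity)]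
  have := hl p q
  rw [hq, sub_zero] at this
  refine this.trans (mul_le_mul_of_nonneg_left ((dst_triangle p c q).trans ?_) hL)
  rw [hcq]
  push_cast at hp ⊢
  linarith

lemma circ_sum {ι : Type*} (s : Finset ι) (G : ι → Pt → ℝ) (σ τ : T.W ≃ T.B) (O : Finset T.W) :
    circ σ τ (fun p => ∑ i ∈ s, G i p) O = ∑ i ∈ s, circ σ τ (G i) O := by
  simp only [circ, sum_mul]
  exact sum_comm

lemma circ_small {F : Pt → ℝ} {B : ℝ} (hB : ∀ p, |F p| ≤ B) {σ τ : T.W ≃ T.B}
    (hσ : σ ∈ matchings T) (hτ : τ ∈ matchings T) :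
    ∑ O ∈ loops σ τ, circ σ τ F O ^ 2 ≤ (2 * B * (mids T.S).card) ^ 2 := by
  have h0 : 0 ≤ B := (abs_nonneg _).trans (hB 0)
  set g := fun w : T.W => F w.1 * (((bpos (σ w)).1 : ℝ) - (bpos (τ w)).1)
  have hg : ∀ w, |g w| ≤ 2 * B := fun w => by
    have a := disp_le ((mem_filter.1 hσ).2 w)
    have b := disp_le ((mem_filter.1 hτ).2 w)
    rw [disp, abs_le] at a b
    rw [abs_mul]
    exact (mul_le_mul (hB _) (abs_le.2 ⟨by linarith, by linarith⟩ : _ ≤ (2 : ℝ)) (abs_nonneg _) h0).trans_eq (by ring)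
  calc _ ≤ ∑ O ∈ loops σ τ, (∑ w ∈ O, |g w|) ^ 2 := sum_le_sum fun O _ => by
        rw [← sq_abs]; exact pow_le_pow_left₀ (abs_nonneg _) (abs_sum_le_sum_abs _ _) 2
    _ ≤ (∑ O ∈ loops σ τ, ∑ w ∈ O, |g w|) ^ 2 :=
      sum_sq_le_sq_sum_of_nonneg fun O _ => sum_nonneg fun w _ => abs_nonneg _
    _ = (∑ w, |g w|) ^ 2 := by
      rw [← sum_fiberwise_of_maps_to (t := loops σ τ) (g := loopAt σ τ) (fun w _ => mem_image_of_mem _ (mem_univ w))]
      refine congrArg (· ^ 2) (sum_congr rfl fun O hO => sum_congr ?_ fun w _ => rfl)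
      obtain ⟨w₀, -, rfl⟩ := mem_image.1 hO
      ext x
      simp only [mem_filter, mem_univ, true_and]
      exact ⟨loopAt_eq, fun hx => hx ▸ self_mem_loopAt⟩
    _ ≤ (∑ _w : T.W, 2 * B) ^ 2 := pow_le_pow_left₀ (sum_nonneg fun w _ => abs_nonneg _) (sum_le_sum fun w _ => hg w) 2
    _ = _ := by rw [sum_const, nsmul_eq_mul, card_univ, card_W]; ring

/-- the number of grid steps -/
def gridK (κ : ℕ) : ℕ := 48 * (κ + 1) + 3

/-- the constant of the circulation bound -/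
def cCirc (κ : ℕ) : ℝ :=
  4 * 576 * (2 * (κ : ℝ) + 3) ^ 6 +
    ((2 * gridK κ + 1 : ℕ) : ℝ) ^ 4 * (1216 * cKey * (1 + 96 * (2 * (κ : ℝ) + 3)) ^ 2 * (2 * (κ : ℝ) + 3) ^ 4)

lemma cCirc_nonneg (κ : ℕ) : 0 ≤ cCirc κ := by
  have : (0 : ℝ) ≤ cKey := by norm_num [cKey]
  unfold cCirc; positivity

/-- the second moment of the circulations of a form supported away from the boundary -/
lemma circ_moment {κ : ℕ} {c : Pt} {m : ℕ} (hm : 1 ≤ m) (hout : ∀ f ∈ T.S, InBox c (κ * m) f) {F : Pt → ℝ} {L : ℝ}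
    (hL : 0 ≤ L) (hl : ∀ p q, |F p - F q| ≤ L * dst p q) (hd : ∀ p, F p ≠ 0 → Deep T m p) :
    ∑ σ ∈ matchings T, ∑ τ ∈ matchings T, ∑ O ∈ loops σ τ, circ σ τ F O ^ 2 ≤
      cCirc κ * L ^ 2 * (m : ℝ) ^ 4 * ((matchings T).card : ℝ) ^ 2 := by
  have hk : (0 : ℝ) ≤ cKey := by norm_num [cKey]
  have hr : (1 : ℝ) ≤ m := by exact_mod_cast hm
  have hB := sup_bound hm hout hL hl hd
  have hn : ((mids T.S).card : ℝ) ≤ ((2 * (κ : ℝ) + 3) * m) ^ 2 := card_mids_le hout hm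
  by_cases hsm : m < 24
  · have h24 : (m : ℝ) ^ 2 ≤ 576 := by
      have : (m : ℝ) ≤ 24 := by exact_mod_cast hsm.le
      nlinarith
    calc _ ≤ ∑ σ ∈ matchings T, ∑ τ ∈ matchings T,
          (2 * (L * ((2 * (κ : ℝ) + 3) * m)) * ((2 * (κ : ℝ) + 3) * m) ^ 2) ^ 2 :=
        sum_le_sum fun σ hσ => sum_le_sum fun τ hτ => (circ_small hB hσ hτ).trans
          (pow_le_pow_left₀ (by positivity) (mul_le_mul_of_nonneg_left hn (by positivity)) 2)
      _ = 4 * (2 * (κ : ℝ) + 3) ^ 6 * L ^ 2 * (m : ℝ) ^ 4 * ((matchings T).card : ℝ) ^ 2 * (m : ℝ) ^ 2 := by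
        simp only [sum_const, nsmul_eq_mul]; ring
      _ ≤ 4 * (2 * (κ : ℝ) + 3) ^ 6 * L ^ 2 * (m : ℝ) ^ 4 * ((matchings T).card : ℝ) ^ 2 * 576 := by gcongr
      _ = (4 * 576 * (2 * (κ : ℝ) + 3) ^ 6) * L ^ 2 * (m : ℝ) ^ 4 * ((matchings T).card : ℝ) ^ 2 := by ring
      _ ≤ _ := by
        gcongr
        exact le_add_of_nonneg_right (by positivity)
  set M := 2 * (m / 24) with hMdef
  have hM2 : 2 ≤ M := by omega
  have h12 : 12 * M ≤ m := by omega
  have h48 : m ≤ 24 * M := by omega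
  have hMr : (0 : ℝ) < M := by
    have : (2 : ℝ) ≤ M := by exact_mod_cast hM2
    linarith
  set c0 : Pt := (2 * (c.1 / 2), 2 * (c.2 / 2))
  set K := gridK κ with hK
  set G := Finset.Icc (-(K : ℤ)) K ×ˢ Finset.Icc (-(K : ℤ)) K
  set ctr : Pt → Pt := fun i => (c0.1 + (M : ℤ) * i.1, c0.2 + (M : ℤ) * i.2)
  set Fi : Pt → Pt → ℝ := fun i p => F p * tent (ctr i) M p
  have hsum : (fun p => ∑ i ∈ G, Fi i p) = F := funext fun p => by
    by_cases h : F p = 0
    · simp [Fi, h]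
    have hp := deep_support hm hout (hd p h)
    have hx : ∀ x a : ℤ, |x - a| ≤ (((κ + 1) * m : ℕ) : ℤ) → |x - 2 * (a / 2)| ≤ ((K : ℤ) - 1) * M := fun x a hxa => by
      have h1 : (κ + 1) * m + 1 ≤ (K - 1) * M := by
        have := Nat.mul_le_mul_left (κ + 1) h48
        have h2 : (K - 1) * M = 48 * ((κ + 1) * M) + 2 * M := by
          rw [hK, gridK, Nat.add_sub_assoc (by norm_num)]; ring
        nlinarith
      have h1' : (((κ + 1) * m : ℕ) : ℤ) + 1 ≤ ((K : ℤ) - 1) * M := by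
        have : 1 ≤ K := by rw [hK, gridK]; omega
        have h := (Nat.cast_le (α := ℤ)).2 h1
        push_cast [Nat.cast_sub this] at h ⊢
        linarith
      rw [abs_le] at hxa ⊢
      omega
    simp only [Fi, tent, ctr, G, ← mul_sum, sum_product]
    simp only [← mul_sum, ← sum_mul]
    simp only [c0, hat_sum (by omega) _ _ (hx p.1 c.1 hp.1), hat_sum (by omega) _ _ (hx p.2 c.2 hp.2), mul_one]
  have hLi : ∀ i p q, |Fi i p - Fi i q| ≤ L * (1 + 96 * (2 * (κ : ℝ) + 3)) * dst p q := fun i p q => by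
    have hbq : |F q| * (2 * dst p q / M) ≤ L * ((2 * (κ : ℝ) + 3) * m) * (2 * dst p q / M) :=
      mul_le_mul_of_nonneg_right (hB q) (div_nonneg (mul_nonneg zero_le_two (dst_nonneg _ _)) hMr.le)
    have hm48 : L * ((2 * (κ : ℝ) + 3) * m) * (2 * dst p q / M) ≤ L * (96 * (2 * (κ : ℝ) + 3)) * dst p q := by
      have : (m : ℝ) ≤ 24 * M := by exact_mod_cast h48
      have h0 := dst_nonneg p q
      have hmm : (m : ℝ) / M ≤ 48 := (div_le_iff₀ hMr).2 (by linarith)
      rw [show L * ((2 * (κ : ℝ) + 3) * m) * (2 * dst p q / M) =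
        L * (2 * (2 * (κ : ℝ) + 3) * (m / M)) * dst p q by ring]
      refine mul_le_mul_of_nonneg_right (mul_le_mul_of_nonneg_left ?_ hL) h0
      calc 2 * (2 * (κ : ℝ) + 3) * (m / M) ≤ 2 * (2 * (κ : ℝ) + 3) * 48 := by gcongr
        _ = _ := by ring
    calc |Fi i p - Fi i q| = |(F p - F q) * tent (ctr i) M p + F q * (tent (ctr i) M p - tent (ctr i) M q)| := by
          simp only [Fi]; ring_nf
      _ ≤ |F p - F q| * |tent (ctr i) M p| + |F q| * |tent (ctr i) M p - tent (ctr i) M q| :=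
        (abs_add_le _ _).trans_eq (by rw [abs_mul, abs_mul])
      _ ≤ L * dst p q * 1 + |F q| * (2 * dst p q / M) :=
        add_le_add (mul_le_mul (hl p q) (by rw [abs_of_nonneg (tent_nonneg _ _ _)]; exact tent_le_one _ _ _)
          (abs_nonneg _) (mul_nonneg hL (dst_nonneg _ _)))
          (mul_le_mul_of_nonneg_left (tent_lip _ (by omega) p q) (abs_nonneg _))
      _ ≤ L * dst p q * 1 + L * (96 * (2 * (κ : ℝ) + 3)) * dst p q := by linarith
      _ = _ := by ring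
  set Bd : ℝ := 1216 * cKey * (L * (1 + 96 * (2 * (κ : ℝ) + 3))) ^ 2 * (((2 * (κ : ℝ) + 3) * m) ^ 2) ^ 2 *
    ((matchings T).card : ℝ) ^ 2
  have hone : ∀ i, ∑ σ ∈ matchings T, ∑ τ ∈ matchings T, ∑ O ∈ loops σ τ, circ σ τ (Fi i) O ^ 2 ≤ Bd := fun i => by
    by_cases hz : ∀ p, Fi i p = 0
    · simp only [circ, hz, zero_mul, sum_const_zero, ne_eq, OfNat.ofNat_ne_zero, not_false_eq_true, zero_pow]
      positivity
    push Not at hz
    obtain ⟨p, hp⟩ := hz
    have hF : F p ≠ 0 := fun e => hp (by simp [Fi, e])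
    have hnear : dst p (ctr i) < M := lt_of_not_ge fun e => hp (by simp [Fi, tent_zero (by omega) e])
    have hsafe : Safe T (ctr i) M := by
      refine ⟨?_, ?_, hM2, fun f o1 o2 hf => hd p hF f o1 o2 ?_⟩
      · simp only [ctr, c0, Int.even_add, Int.even_mul, even_two, true_or, Int.even_coe_nat, hMdef]; simp
      · simp only [ctr, c0, Int.even_add, Int.even_mul, even_two, true_or, Int.even_coe_nat, hMdef]; simp
      · refine dst_le_cast.1 ((dst_triangle f (ctr i) p).trans ?_)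
        have := dst_le_cast.2 hf
        have : (12 : ℝ) * M ≤ m := by exact_mod_cast h12
        push_cast at *
        linarith [dst_comm p (ctr i)]
    refine (core hsafe (fun q hq => by simp [Fi, tent_zero (g := ctr i) (p := q) (M := M) (by omega) (by linarith)])
      (hLi i)).trans (mul_le_mul_of_nonneg_right ?_ (sq_nonneg _))
    exact mul_le_mul_of_nonneg_left (pow_le_pow_left₀ (Nat.cast_nonneg _) hn 2) (by positivity)
  calc _ = ∑ σ ∈ matchings T, ∑ τ ∈ matchings T, ∑ O ∈ loops σ τ, (∑ i ∈ G, circ σ τ (Fi i) O) ^ 2 := by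
        simp only [← circ_sum, hsum]
    _ ≤ ∑ σ ∈ matchings T, ∑ τ ∈ matchings T, ∑ O ∈ loops σ τ, (G.card : ℝ) * ∑ i ∈ G, circ σ τ (Fi i) O ^ 2 :=
      sum_le_sum fun σ _ => sum_le_sum fun τ _ => sum_le_sum fun O _ => sq_sum_le_card_mul_sum_sq
    _ = (G.card : ℝ) * ∑ i ∈ G, ∑ σ ∈ matchings T, ∑ τ ∈ matchings T, ∑ O ∈ loops σ τ, circ σ τ (Fi i) O ^ 2 := by
      simp only [← mul_sum]
      congr 1
      rw [sum_comm (s := G)]
      refine sum_congr rfl fun σ _ => ?_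
      rw [sum_comm (s := G)]
      exact sum_congr rfl fun τ _ => sum_comm
    _ ≤ (G.card : ℝ) * ∑ _i ∈ G, Bd := mul_le_mul_of_nonneg_left (sum_le_sum fun i _ => hone i) (Nat.cast_nonneg _)
    _ = (((2 * gridK κ + 1 : ℕ) : ℝ) ^ 4 * (1216 * cKey * (1 + 96 * (2 * (κ : ℝ) + 3)) ^ 2 * (2 * (κ : ℝ) + 3) ^ 4)) *
          L ^ 2 * (m : ℝ) ^ 4 * ((matchings T).card : ℝ) ^ 2 := by
      have e : (Finset.Icc (-(K : ℤ)) K).card = 2 * gridK κ + 1 := by rw [Int.card_Icc, ← hK]; omega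
      rw [sum_const, nsmul_eq_mul, card_product, e]
      simp only [Bd]
      push_cast
      ring
    _ ≤ _ := by
      gcongr
      exact le_add_of_nonneg_left (by positivity)

/-- tightness of circulations and of the number of loops of macroscopic area, on every compact part -/
theorem circ_area_moment (κ : ℕ) : ∃ C : ℝ, ∀ (T : TGraph) (c : Pt) (m : ℕ), 1 ≤ m →
    (∀ f ∈ T.S, InBox c (κ * m) f) →
      0 < (matchings T).card ∧
      (∀ (F : Pt → ℝ) (L : ℝ), 0 ≤ L → (∀ p q, |F p - F q| ≤ L * dst p q) → (∀ p, F p ≠ 0 → Deep T m p) →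
        ∑ σ ∈ matchings T, ∑ τ ∈ matchings T, ∑ O ∈ loops σ τ, circ σ τ F O ^ 2 ≤
          C * L ^ 2 * (m : ℝ) ^ 4 * ((matchings T).card : ℝ) ^ 2) ∧
      ∑ σ ∈ matchings T, ∑ τ ∈ matchings T, ∑ O ∈ loopsDeep σ τ m, area σ τ O ^ 2 ≤
        C * (m : ℝ) ^ 4 * ((matchings T).card : ℝ) ^ 2 ∧
      ∀ θ : ℝ, 0 < θ →
        ∑ σ ∈ matchings T, ∑ τ ∈ matchings T,
          (((loopsDeep σ τ m).filter fun O => θ * (m : ℝ) ^ 2 ≤ |area σ τ O|).card : ℝ) ≤
        C / θ ^ 2 * ((matchings T).card : ℝ) ^ 2 := by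
  refine ⟨cCirc κ + cCirc (2 * κ) * (2 * (κ : ℝ) + 3) ^ 2, fun T c m hm hout => ⟨matchings_pos, ?_, ?_⟩⟩
  · intro F L hL hl hd
    refine (circ_moment hm hout hL hl hd).trans ?_
    gcongr
    exact le_add_of_nonneg_right (mul_nonneg (cCirc_nonneg _) (sq_nonneg _))
  have hmr : (1 : ℝ) ≤ m := by exact_mod_cast hm
  -- a cutoff equal to one at every deep point
  set R : ℤ := (((κ + 1) * m : ℕ) : ℤ)
  set Q := (Finset.Icc (c.1 - R) (c.1 + R) ×ˢ Finset.Icc (c.2 - R) (c.2 + R)).filter (Deep T m)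
  have hQ : ∀ p, Deep T m p → p ∈ Q := fun p hp => by
    obtain ⟨a, b⟩ := deep_support hm hout hp
    rw [abs_le] at a b
    simp only [Q, mem_filter, mem_product, Finset.mem_Icc, R]
    exact ⟨⟨⟨by omega, by omega⟩, ⟨by omega, by omega⟩⟩, hp⟩
  set η : Pt → ℝ := fun p => (insert 0 (Q.image fun q => 1 - 2 * dst p q / m)).max' (insert_nonempty _ _)
  have η0 : ∀ p, 0 ≤ η p := fun p => le_max' _ _ (mem_insert_self _ _)
  have η1 : ∀ p, η p ≤ 1 := fun p => max'_le _ _ _ fun x hx => by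
    rcases mem_insert.1 hx with rfl | hx
    · exact zero_le_one
    obtain ⟨q, -, rfl⟩ := mem_image.1 hx
    have := dst_nonneg p q
    have : 0 ≤ 2 * dst p q / m := by positivity
    linarith
  have ηone : ∀ p, Deep T m p → η p = 1 := fun p hp => le_antisymm (η1 p)
    (le_max' _ _ (mem_insert_of_mem (mem_image.2 ⟨p, hQ p hp, by simp [dst_self]⟩)))
  have ηmono : ∀ p p', η p ≤ η p' + 2 * dst p p' / m := fun p p' => max'_le _ _ _ fun x hx => by
    have h0 : 0 ≤ 2 * dst p p' / m := by have := dst_nonneg p p'; positivity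
    rcases mem_insert.1 hx with rfl | hx
    · linarith [η0 p']
    obtain ⟨q, hq, rfl⟩ := mem_image.1 hx
    have h1 : 1 - 2 * dst p' q / m ≤ η p' :=
      le_max' (insert 0 (Q.image fun r => 1 - 2 * dst p' r / (m : ℝ))) _ (mem_insert_of_mem (mem_image.2 ⟨q, hq, rfl⟩))
    have h2 : 2 * dst p' q / m ≤ 2 * dst p p' / m + 2 * dst p q / m := by
      rw [← add_div]; gcongr; linarith [dst_triangle p' p q, dst_comm p p']
    linarith
  set m' := (m + 1) / 2
  have hm' : 1 ≤ m' := by omega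
  have ηdeep : ∀ p, η p ≠ 0 → Deep T m' p := fun p hp => by
    have hmem := max'_mem (insert 0 (Q.image fun q => 1 - 2 * dst p q / m)) (insert_nonempty _ _)
    rcases mem_insert.1 hmem with h | h
    · exact absurd h hp
    obtain ⟨q, hq, he⟩ := mem_image.1 h
    have hpos : 0 < 1 - 2 * dst p q / m := he ▸ lt_of_le_of_ne (η0 p) (Ne.symm hp)
    have hlt : 2 * dst p q < m := by
      rw [sub_pos, div_lt_one (by linarith)] at hpos
      exact hpos
    rw [dst_eq_cast] at hlt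
    have hlt' : 2 * max |p.1 - q.1| |p.2 - q.2| < (m : ℤ) := by exact_mod_cast hlt
    intro f o1 o2 hf
    refine (mem_filter.1 hq).2 f o1 o2 ?_
    obtain ⟨a, b⟩ := hf
    rw [InBox, abs_le, abs_le]
    rw [abs_le] at a b
    have := le_max_left |p.1 - q.1| |p.2 - q.2|
    have := le_max_right |p.1 - q.1| |p.2 - q.2|
    have := le_abs_self (p.1 - q.1)
    have := neg_le_abs (p.1 - q.1)
    have := le_abs_self (p.2 - q.2)
    have := neg_le_abs (p.2 - q.2)
    omega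
  set F : Pt → ℝ := fun p => ((p.2 : ℝ) - c.2) * η p
  have hout' : ∀ f ∈ T.S, InBox c (2 * κ * m') f := fun f hf => by
    obtain ⟨a, b⟩ := hout f hf
    have : κ * m ≤ 2 * κ * m' := by
      rw [mul_comm 2 κ, mul_assoc]
      exact Nat.mul_le_mul_left _ (by omega)
    have := (Nat.cast_le (α := ℤ)).2 this
    exact ⟨by omega, by omega⟩
  have hside : ∀ p, η p ≠ 0 → |(p.2 : ℝ) - c.2| ≤ ((κ : ℝ) + 1) * m := fun p hp => by
    obtain ⟨-, b⟩ := deep_support (κ := 2 * κ) hm' hout' (ηdeep p hp)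
    have hb' : (2 * κ + 1) * m' ≤ (2 * κ + 1) * m := Nat.mul_le_mul_left _ (by omega)
    have hb : InBox c (κ * m) (2 * (p.1 / 2) + 1, 2 * (p.2 / 2) + 1) :=
      hout _ (ηdeep p hp _ ⟨p.1 / 2, rfl⟩ ⟨p.2 / 2, rfl⟩ (by rw [InBox, abs_le, abs_le]; omega))
    obtain ⟨-, hb⟩ := hb
    rw [abs_le] at hb
    simp only at hb
    have : |p.2 - c.2| ≤ ((κ * m : ℕ) : ℤ) + (m : ℤ) := by
      rw [abs_le]; omega
    have := (Int.cast_le (R := ℝ)).2 this
    push_cast at this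
    linarith
  have hone : ∀ p q, η q ≠ 0 → |F p - F q| ≤ (2 * (κ : ℝ) + 3) * dst p q := fun p q hq => by
    have h0 := dst_nonneg p q
    have e1 : |((p.2 : ℝ) - q.2) * η p| ≤ dst p q := by
      rw [abs_mul, abs_of_nonneg (η0 p)]
      exact (mul_le_of_le_one_right (abs_nonneg _) (η1 p)).trans (le_max_right _ _)
    have e2 : |((q.2 : ℝ) - c.2) * (η p - η q)| ≤ ((κ : ℝ) + 1) * m * (2 * dst p q / m) := by
      rw [abs_mul]
      refine mul_le_mul (hside q hq) (abs_sub_le_iff.2 ⟨?_, ?_⟩) (abs_nonneg _) (by positivity)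
      · linarith [ηmono p q]
      · linarith [ηmono q p, show 2 * dst q p / (m : ℝ) = 2 * dst p q / m by rw [dst_comm]]
    have e3 : ((κ : ℝ) + 1) * m * (2 * dst p q / m) = 2 * ((κ : ℝ) + 1) * dst p q := by field_simp
    calc |F p - F q| = |((p.2 : ℝ) - q.2) * η p + ((q.2 : ℝ) - c.2) * (η p - η q)| := by simp only [F]; ring_nf
      _ ≤ _ := abs_add_le _ _
      _ ≤ dst p q + 2 * ((κ : ℝ) + 1) * dst p q := by linarith
      _ = _ := by ring
  have hF : ∀ p q, |F p - F q| ≤ (2 * (κ : ℝ) + 3) * dst p q := fun p q => by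
    by_cases hq : η q = 0
    · by_cases hp : η p = 0
      · simp only [F, hp, hq, mul_zero, sub_self, abs_zero]
        exact mul_nonneg (by positivity) (dst_nonneg _ _)
      · rw [abs_sub_comm, dst_comm]; exact hone q p hp
    · exact hone p q hq
  have key := circ_moment (c := c) hm' hout' (L := 2 * (κ : ℝ) + 3) (by positivity) hF fun p hp =>
    ηdeep p fun e => hp (by simp [F, e])
  have harea : ∀ σ τ : T.W ≃ T.B, ∀ O ∈ loopsDeep σ τ m, area σ τ O = circ σ τ F O := fun σ τ O hO => by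
    obtain ⟨hO, hdeep⟩ := mem_filter.1 hO
    obtain ⟨w₀, -, rfl⟩ := mem_image.1 hO
    have h := sum_loop_eq σ τ w₀
    simp only [xpos] at h
    rw [circ, sum_congr rfl fun w hw => by rw [show F w.1 = (w.1.2 : ℝ) - c.2 by simp [F, ηone _ (hdeep w hw)], sub_mul],
      sum_sub_distrib, ← mul_sum, sum_sub_distrib (f := fun v => ((bpos (σ v)).1 : ℝ)), h, sub_self, mul_zero, sub_zero]
    rfl
  set C : ℝ := cCirc κ + cCirc (2 * κ) * (2 * (κ : ℝ) + 3) ^ 2
  have main : ∑ σ ∈ matchings T, ∑ τ ∈ matchings T, ∑ O ∈ loopsDeep σ τ m, area σ τ O ^ 2 ≤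
      C * (m : ℝ) ^ 4 * ((matchings T).card : ℝ) ^ 2 := by
    calc _ ≤ ∑ σ ∈ matchings T, ∑ τ ∈ matchings T, ∑ O ∈ loops σ τ, circ σ τ F O ^ 2 :=
          sum_le_sum fun σ _ => sum_le_sum fun τ _ => by
            rw [sum_congr rfl fun O hO => by rw [harea σ τ O hO]]
            exact sum_le_sum_of_subset_of_nonneg (filter_subset _ _) fun O _ _ => sq_nonneg _
      _ ≤ _ := key
      _ ≤ cCirc (2 * κ) * (2 * (κ : ℝ) + 3) ^ 2 * (m : ℝ) ^ 4 * ((matchings T).card : ℝ) ^ 2 := by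
        have := cCirc_nonneg (2 * κ)
        gcongr
        omega
      _ ≤ _ := by
        gcongr
        exact le_add_of_nonneg_left (cCirc_nonneg _)
  refine ⟨main, fun θ hθ => ?_⟩
  have h : (∑ σ ∈ matchings T, ∑ τ ∈ matchings T,
      (((loopsDeep σ τ m).filter fun O => θ * (m : ℝ) ^ 2 ≤ |area σ τ O|).card : ℝ)) * (θ ^ 2 * (m : ℝ) ^ 4) ≤
      ∑ σ ∈ matchings T, ∑ τ ∈ matchings T, ∑ O ∈ loopsDeep σ τ m, area σ τ O ^ 2 := by
    simp only [sum_mul]
    refine sum_le_sum fun σ _ => sum_le_sum fun τ _ => ?_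
    rw [← nsmul_eq_mul, ← sum_const, sum_filter]
    refine sum_le_sum fun O _ => ?_
    split_ifs with h
    · rw [← sq_abs (area σ τ O)]
      exact le_of_eq_of_le (by ring) (pow_le_pow_left₀ (by positivity) h 2)
    · positivity
  rw [div_mul_eq_mul_div, le_div_iff₀ (by positivity)]
  refine le_of_mul_le_mul_right ?_ (pow_pos (show (0 : ℝ) < m by linarith) 4)
  calc _ = _ := by ring
    _ ≤ _ := h.trans main
    _ = _ := by ring

end Vale.Agent.P155
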